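import Mathlib

/-!
Monotone transport of a density on an interval to the Gaussian density `exp (-π x²)`.
-/

open MeasureTheory Set Filter Topology Real

namespace Vale.Agent.P237.Asymp

/-- The Gaussian density of total mass one. -/
noncomputable def gam (x : ℝ) : ℝ := exp (-π * x ^ 2)

/-- Its distribution function. -/
noncomputable def cdfG (x : ℝ) : ℝ := ∫ y in Iic x, gam y

lemma gam_pos (x : ℝ) : 0 < gam x := exp_pos _

lemma continuous_gam : Continuous gam := by unfold gam; fun_prop

lemma integrable_gam : Integrable gam := integrable_exp_neg_mul_sq Real.pi_pos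

lemma integral_gam : ∫ x, gam x = 1 := by
  unfold gam
  rw [integral_gaussian, div_self Real.pi_pos.ne', Real.sqrt_one]

lemma cdfG_eq (x : ℝ) : cdfG x = (∫ y in Iic (0 : ℝ), gam y) + ∫ y in (0 : ℝ)..x, gam y := by
  have h := intervalIntegral.integral_Iic_sub_Iic (a := (0 : ℝ)) (b := x)
    integrable_gam.integrableOn integrable_gam.integrableOn
  simp only [cdfG] at *
  linarith

lemma hasDerivAt_cdfG (x : ℝ) : HasDerivAt cdfG (gam x) x := by
  rw [show cdfG = fun x => (∫ y in Iic (0 : ℝ), gam y) + ∫ y in (0 : ℝ)..x, gam y from funext cdfG_eq]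
  exact (continuous_gam.integral_hasStrictDerivAt 0 x).hasDerivAt.const_add _

lemma strictMono_cdfG : StrictMono cdfG :=
  strictMono_of_hasDerivAt_pos hasDerivAt_cdfG gam_pos

lemma continuous_cdfG : Continuous cdfG :=
  continuous_iff_continuousAt.2 fun x => (hasDerivAt_cdfG x).continuousAt

lemma tendsto_cdfG_atTop : Tendsto cdfG atTop (𝓝 1) := by
  have h := (intervalIntegral_tendsto_integral_Ioi 0 (integrable_gam.integrableOn (s := Ioi 0))
    tendsto_id).const_add (∫ y in Iic (0 : ℝ), gam y)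
  rw [intervalIntegral.integral_Iic_add_Ioi integrable_gam.integrableOn integrable_gam.integrableOn,
    integral_gam] at h
  exact h.congr fun x => (cdfG_eq x).symm

lemma tendsto_cdfG_atBot : Tendsto cdfG atBot (𝓝 0) := by
  have h := ((intervalIntegral_tendsto_integral_Iic 0 (integrable_gam.integrableOn (s := Iic 0))
    tendsto_id).neg).const_add (∫ y in Iic (0 : ℝ), gam y)
  rw [add_neg_cancel] at h
  refine h.congr fun x => ?_
  rw [cdfG_eq, id_eq, ← intervalIntegral.integral_symm]

lemma cdfG_mem (x : ℝ) : cdfG x ∈ Ioo 0 1 := by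
  refine ⟨lt_of_le_of_lt (le_of_tendsto tendsto_cdfG_atBot ?_) (strictMono_cdfG (sub_one_lt x)),
    lt_of_lt_of_le (strictMono_cdfG (lt_add_one x)) (ge_of_tendsto tendsto_cdfG_atTop ?_)⟩
  · exact (eventually_le_atBot (x - 1)).mono fun y hy => strictMono_cdfG.monotone hy
  · exact (eventually_ge_atTop (x + 1)).mono fun y hy => strictMono_cdfG.monotone hy

lemma exists_cdfG {q : ℝ} (hq : q ∈ Ioo (0 : ℝ) 1) : ∃ x, cdfG x = q := by
  obtain ⟨a, ha⟩ := (tendsto_cdfG_atBot.eventually (eventually_lt_nhds hq.1)).exists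
  obtain ⟨b, hb⟩ := (tendsto_cdfG_atTop.eventually (eventually_gt_nhds hq.2)).exists
  exact intermediate_value_univ a b continuous_cdfG ⟨ha.le, hb.le⟩

/-- The Gaussian quantile. -/
noncomputable def quantG (q : ℝ) : ℝ := Function.invFun cdfG q

lemma cdfG_quantG {q : ℝ} (hq : q ∈ Ioo (0 : ℝ) 1) : cdfG (quantG q) = q :=
  Function.invFun_eq (exists_cdfG hq)

lemma quantG_cdfG (x : ℝ) : quantG (cdfG x) = x :=
  strictMono_cdfG.injective (cdfG_quantG (cdfG_mem x))

lemma monotoneOn_quantG : MonotoneOn quantG (Ioo 0 1) := fun a ha b hb hab =>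
  strictMono_cdfG.le_iff_le.1 (by rwa [cdfG_quantG ha, cdfG_quantG hb])

lemma hasDerivAt_quantG {q : ℝ} (hq : q ∈ Ioo (0 : ℝ) 1) :
    HasDerivAt quantG (gam (quantG q))⁻¹ q := by
  have hnhds : Ioo (0 : ℝ) 1 ∈ 𝓝 q := isOpen_Ioo.mem_nhds hq
  have hc : ContinuousAt quantG q := continuousAt_of_monotoneOn_of_image_mem_nhds monotoneOn_quantG
    hnhds (by
      rw [show quantG '' Ioo 0 1 = univ from eq_univ_of_forall fun x =>
        ⟨cdfG x, cdfG_mem x, quantG_cdfG x⟩]
      exact univ_mem)
  exact HasDerivAt.of_local_left_inverse hc (hasDerivAt_cdfG _) (gam_pos _).ne'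
    (eventually_of_mem hnhds fun y hy => cdfG_quantG hy)

/-- A positive continuous density on an interval is the pullback of the Gaussian density by a
strictly monotone map. -/
theorem exists_transport {a b : ℝ} {g : ℝ → ℝ} (hcont : ContinuousOn g (Ioo a b))
    (hpos : ∀ t ∈ Ioo a b, 0 < g t) (hint : IntegrableOn g (Ioo a b))
    (hone : ∫ t in Ioo a b, g t = 1) :
    ∃ S S' : ℝ → ℝ, (∀ t ∈ Ioo a b, HasDerivAt S (S' t) t) ∧ (∀ t ∈ Ioo a b, 0 < S' t) ∧
      StrictMonoOn S (Ioo a b) ∧ ∀ t ∈ Ioo a b, g t = gam (S t) * S' t := by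
  set h := (Ioo a b).indicator g with hh
  have hi : Integrable h := (integrable_indicator_iff measurableSet_Ioo).2 hint
  have hpr : Continuous fun t => ∫ y in a..t, h y :=
    intervalIntegral.continuous_primitive (fun _ _ => hi.intervalIntegrable) a
  set G := fun t => ∫ y in a..t, h y with hG
  have hd : ∀ t ∈ Ioo a b, HasDerivAt G (g t) t := by
    intro t ht
    have e : h =ᶠ[𝓝 t] g := eventually_of_mem (isOpen_Ioo.mem_nhds ht) fun y hy => indicator_of_mem hy g
    have hct : ContinuousAt h t := (hcont.continuousAt (isOpen_Ioo.mem_nhds ht)).congr e.symm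
    have := intervalIntegral.integral_hasDerivAt_right (a := a) (b := t) hi.intervalIntegrable
      hi.aestronglyMeasurable.stronglyMeasurableAtFilter hct
    rwa [show h t = g t from indicator_of_mem ht g] at this
  have hmem : ∀ t ∈ Ioo a b, G t ∈ Ioo (0 : ℝ) 1 := by
    intro t ht
    have hb : G b = 1 := by
      rw [hG]
      simp only
      rw [intervalIntegral.integral_of_le (ht.1.trans ht.2).le, integral_Ioc_eq_integral_Ioo,
        setIntegral_congr_fun measurableSet_Ioo fun y hy => indicator_of_mem hy g, hone]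
    have hmono : StrictMonoOn G (Icc a b) := strictMonoOn_of_deriv_pos (convex_Icc a b)
      hpr.continuousOn fun y hy => by rw [interior_Icc] at hy; rw [(hd y hy).deriv]; exact hpos y hy
    have hI := Ioo_subset_Icc_self ht
    have ha : G a = 0 := intervalIntegral.integral_same
    exact ⟨ha ▸ hmono (left_mem_Icc.2 (hI.1.trans hI.2)) hI ht.1,
      hb ▸ hmono hI (right_mem_Icc.2 (hI.1.trans hI.2)) ht.2⟩
  have hS : ∀ t ∈ Ioo a b, HasDerivAt (fun s => quantG (G s))
      ((gam (quantG (G t)))⁻¹ * g t) t := fun t ht => (hasDerivAt_quantG (hmem t ht)).comp t (hd t ht)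
  have hS0 : ∀ t ∈ Ioo a b, 0 < (gam (quantG (G t)))⁻¹ * g t := fun t ht =>
    mul_pos (inv_pos.2 (gam_pos _)) (hpos t ht)
  refine ⟨_, _, hS, hS0, strictMonoOn_of_deriv_pos (convex_Ioo a b)
    (fun y hy => (hS y hy).continuousAt.continuousWithinAt)
    (fun y hy => by rw [interior_Ioo] at hy; rw [(hS y hy).deriv]; exact hS0 y hy), fun t ht => ?_⟩
  rw [← mul_assoc, mul_inv_cancel₀ (gam_pos _).ne', one_mul]

end Vale.Agent.P237.Asymp
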