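import Vale.Agent.P237.Asymp.Det
import Vale.Agent.P237.Asymp.Gauss

/-!
The geometric Brascamp-Lieb inequality for positive continuous densities on intervals, by
monotone transport to the Gaussian.
-/

open MeasureTheory Set Filter Topology Real Finset
open scoped RealInnerProductSpace ENNReal

namespace Vale.Agent.P237.Asymp

variable {ι : Type*} [Fintype ι] {n : ℕ}

lemma lintegral_gauss :
    ∫⁻ x : (EuclideanSpace ℝ (Fin n)), ENNReal.ofReal (exp (-π * ‖x‖ ^ 2)) = 1 := by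
  have h := GaussianFourier.integral_rexp_neg_mul_sq_norm (V := (EuclideanSpace ℝ (Fin n))) Real.pi_pos
  rw [div_self Real.pi_pos.ne', one_rpow] at h
  have hi : Integrable fun x : (EuclideanSpace ℝ (Fin n)) => exp (-π * ‖x‖ ^ 2) := by
    by_contra hc
    rw [integral_undef hc] at h
    norm_num at h
  rw [← ofReal_integral_eq_lintegral_ofReal hi (Eventually.of_forall fun x => (exp_pos _).le), h,
    ENNReal.ofReal_one]

/-- The slab intersection. -/
def slabs (u : ι → (EuclideanSpace ℝ (Fin n))) (a b : ι → ℝ) : Set (EuclideanSpace ℝ (Fin n)) := {x | ∀ i, ⟪u i, x⟫ ∈ Ioo (a i) (b i)}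

theorem brascamp_lieb {c : ι → ℝ} (hc : ∀ i, 0 ≤ c i) {u : ι → (EuclideanSpace ℝ (Fin n))} (hu : ∀ i, ‖u i‖ = 1)
    (hI : ∀ x : (EuclideanSpace ℝ (Fin n)), ∑ i, c i * ⟪u i, x⟫ ^ 2 = ‖x‖ ^ 2) {a b : ι → ℝ} {g : ι → ℝ → ℝ}
    (hcont : ∀ i, ContinuousOn (g i) (Ioo (a i) (b i))) (hpos : ∀ i, ∀ t ∈ Ioo (a i) (b i), 0 < g i t)
    (hint : ∀ i, IntegrableOn (g i) (Ioo (a i) (b i)))
    (hone : ∀ i, ∫ t in Ioo (a i) (b i), g i t = 1) :
    ∫⁻ x in slabs u a b, ENNReal.ofReal (∏ i, g i ⟪u i, x⟫ ^ c i) ≤ 1 := by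
  choose S S' hS hS0 hmono hg using fun i => exists_transport (hcont i) (hpos i) (hint i) (hone i)
  set Ω := slabs u a b with hΩ
  have hΩm : MeasurableSet Ω := by
    simp only [hΩ, slabs, Set.ofPred_forall]
    exact (isOpen_iInter_of_finite fun i => isOpen_Ioo.preimage
      (by fun_prop : Continuous fun x : (EuclideanSpace ℝ (Fin n)) => ⟪u i, x⟫)).measurableSet
  set T : (EuclideanSpace ℝ (Fin n)) → (EuclideanSpace ℝ (Fin n)) := fun x => ∑ i, (c i * S i ⟪u i, x⟫) • u i with hT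
  set D : (EuclideanSpace ℝ (Fin n)) → (EuclideanSpace ℝ (Fin n)) →L[ℝ] (EuclideanSpace ℝ (Fin n)) := fun x => frameOp (fun i => c i * S' i ⟪u i, x⟫) u with hD
  have hderiv : ∀ x ∈ Ω, HasFDerivWithinAt T (D x) Ω x := by
    intro x hx
    refine HasFDerivAt.hasFDerivWithinAt ?_
    refine HasFDerivAt.fun_sum fun i _ => ?_
    have h1 := ((hS i _ (hx i)).comp_hasFDerivAt x
      ((innerSL ℝ (u i)).hasFDerivAt (x := x))).const_mul (c i)
    refine (h1.smul_const (u i)).congr_fderiv ?_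
    ext y
    simp [mul_smul]
  have hinj : InjOn T Ω := by
    intro x hx y hy hxy
    by_contra hne
    have h0 : ⟪T x - T y, x - y⟫ = 0 := by rw [hxy, sub_self, inner_zero_left]
    have e : ⟪T x - T y, x - y⟫ =
        ∑ i, c i * ((S i ⟪u i, x⟫ - S i ⟪u i, y⟫) * (⟪u i, x⟫ - ⟪u i, y⟫)) := by
      simp only [T, ← Finset.sum_sub_distrib, sum_inner, ← sub_smul, real_inner_smul_left, inner_sub_right]
      exact sum_congr rfl fun i _ => by ring
    have hterm : ∀ i, ⟪u i, x⟫ ≠ ⟪u i, y⟫ →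
        0 < (S i ⟪u i, x⟫ - S i ⟪u i, y⟫) * (⟪u i, x⟫ - ⟪u i, y⟫) := by
      intro i h
      rcases lt_or_gt_of_ne h with h | h
      · exact mul_pos_of_neg_of_neg (sub_neg.2 (hmono i (hx i) (hy i) h)) (sub_neg.2 h)
      · exact mul_pos (sub_pos.2 (hmono i (hy i) (hx i) h)) (sub_pos.2 h)
    have hnn : ∀ i, 0 ≤ c i * ((S i ⟪u i, x⟫ - S i ⟪u i, y⟫) * (⟪u i, x⟫ - ⟪u i, y⟫)) := fun i => by
      rcases eq_or_ne ⟪u i, x⟫ ⟪u i, y⟫ with h | h
      · simp [h]
      · exact mul_nonneg (hc i) (hterm i h).le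
    obtain ⟨i, -, hi⟩ := exists_ne_zero_of_sum_ne_zero
      (show ∑ i, c i * ⟪u i, x - y⟫ ^ 2 ≠ 0 by rw [hI]; simp [sub_eq_zero, hne])
    have hne' : ⟪u i, x⟫ ≠ ⟪u i, y⟫ := fun h => hi (by simp [inner_sub_right, h])
    have hci : 0 < c i := (hc i).lt_of_ne' fun h => hi (by simp [h])
    rw [e] at h0
    have hp := Finset.sum_pos' (s := Finset.univ) (fun j _ => hnn j)
      ⟨i, Finset.mem_univ i, mul_pos hci (hterm i hne')⟩
    exact hp.ne' h0
  have hnorm : ∀ x, ‖T x‖ ^ 2 ≤ ∑ i, c i * S i ⟪u i, x⟫ ^ 2 := by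
    intro x
    have h1 : ‖T x‖ ^ 2 = ∑ i, c i * (S i ⟪u i, x⟫ * ⟪u i, T x⟫) := by
      rw [← real_inner_self_eq_norm_sq]
      show ⟪∑ i, (c i * S i ⟪u i, x⟫) • u i, T x⟫ = _
      simp only [sum_inner, real_inner_smul_left]
      exact sum_congr rfl fun i _ => by ring
    have h2 : ∑ i, c i * (S i ⟪u i, x⟫ * ⟪u i, T x⟫) ≤
        ∑ i, c i * ((S i ⟪u i, x⟫ ^ 2 + ⟪u i, T x⟫ ^ 2) / 2) :=
      Finset.sum_le_sum fun i _ => mul_le_mul_of_nonneg_left (by nlinarith [sq_nonneg (S i ⟪u i, x⟫ - ⟪u i, T x⟫)]) (hc i)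
    have h3 : ∑ i, c i * ((S i ⟪u i, x⟫ ^ 2 + ⟪u i, T x⟫ ^ 2) / 2) =
        (∑ i, c i * S i ⟪u i, x⟫ ^ 2 + ‖T x‖ ^ 2) / 2 := by
      rw [← hI (T x), ← Finset.sum_add_distrib, Finset.sum_div]
      exact sum_congr rfl fun i _ => by ring
    linarith
  have key : ∀ x ∈ Ω, ENNReal.ofReal (∏ i, g i ⟪u i, x⟫ ^ c i) ≤
      ENNReal.ofReal |(D x).det| * ENNReal.ofReal (exp (-π * ‖T x‖ ^ 2)) := by
    intro x hx
    rw [← ENNReal.ofReal_mul (abs_nonneg _)]
    refine ENNReal.ofReal_le_ofReal ?_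
    have e : ∏ i, g i ⟪u i, x⟫ ^ c i =
        exp (-π * ∑ i, c i * S i ⟪u i, x⟫ ^ 2) * ∏ i, S' i ⟪u i, x⟫ ^ c i := by
      rw [Finset.mul_sum, exp_sum, ← Finset.prod_mul_distrib]
      refine prod_congr rfl fun i _ => ?_
      rw [hg i _ (hx i), mul_rpow (gam_pos _).le (hS0 i _ (hx i)).le, gam, ← exp_mul]
      congr 2
      ring
    rw [e, mul_comm]
    refine mul_le_mul ?_ (exp_le_exp.2 ?_) (exp_pos _).le (abs_nonneg _)
    · exact (prod_rpow_le_det hc hu hI fun i => hS0 i _ (hx i)).trans (le_abs_self _)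
    · exact mul_le_mul_of_nonpos_left (hnorm x) (neg_nonpos.2 Real.pi_pos.le)
  calc ∫⁻ x in Ω, ENNReal.ofReal (∏ i, g i ⟪u i, x⟫ ^ c i)
      ≤ ∫⁻ x in Ω, ENNReal.ofReal |(D x).det| * ENNReal.ofReal (exp (-π * ‖T x‖ ^ 2)) :=
        setLIntegral_mono' hΩm key
    _ = ∫⁻ y in T '' Ω, ENNReal.ofReal (exp (-π * ‖y‖ ^ 2)) :=
        (lintegral_image_eq_lintegral_abs_det_fderiv_mul volume hΩm hderiv hinj
          fun y => ENNReal.ofReal (exp (-π * ‖y‖ ^ 2))).symm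
    _ ≤ 1 := (setLIntegral_le_lintegral _ _).trans lintegral_gauss.le

/-- The same after a volume preserving change of variables and a rescaling of each coordinate. -/
theorem brascamp_lieb_comp {c : ι → ℝ} (hc : ∀ i, 0 ≤ c i) {u : ι → (EuclideanSpace ℝ (Fin n))} (hu : ∀ i, ‖u i‖ = 1)
    (hI : ∀ x : (EuclideanSpace ℝ (Fin n)), ∑ i, c i * ⟪u i, x⟫ ^ 2 = ‖x‖ ^ 2) (P : (EuclideanSpace ℝ (Fin n)) →ₗ[ℝ] (EuclideanSpace ℝ (Fin n))) (hP : |LinearMap.det P| = 1)
    {r : ι → ℝ} (hr : ∀ i, 0 < r i) {a b : ι → ℝ} {g : ι → ℝ → ℝ}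
    (hcont : ∀ i, ContinuousOn (g i) (Ioo (a i) (b i))) (hpos : ∀ i, ∀ t ∈ Ioo (a i) (b i), 0 < g i t)
    (hint : ∀ i, IntegrableOn (g i) (Ioo (a i) (b i)))
    (hone : ∀ i, ∫ t in Ioo (a i) (b i), g i t = 1) {U : Set (EuclideanSpace ℝ (Fin n))}
    (hU : ∀ x ∈ U, ∀ i, r i * ⟪u i, P x⟫ ∈ Ioo (a i) (b i)) :
    ∫⁻ x in U, ENNReal.ofReal (∏ i, (r i * g i (r i * ⟪u i, P x⟫)) ^ c i) ≤ 1 := by
  set g' : ι → ℝ → ℝ := fun i t => r i * g i (r i * t) with hg'
  have hmem : ∀ i t, t ∈ Ioo (a i / r i) (b i / r i) ↔ r i * t ∈ Ioo (a i) (b i) := fun i t => by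
    simp only [Set.mem_Ioo, div_lt_iff₀ (hr i), lt_div_iff₀ (hr i), mul_comm t]
  have hset : ∀ i, ∫ t in Ioo (a i / r i) (b i / r i), g' i t = 1 ∧
      IntegrableOn (g' i) (Ioo (a i / r i) (b i / r i)) := by
    intro i
    have e : (Ioo (a i / r i) (b i / r i)).indicator (g' i) =
        fun t => r i * (Ioo (a i) (b i)).indicator (g i) (r i * t) := by
      funext t
      by_cases h : t ∈ Ioo (a i / r i) (b i / r i)
      · rw [indicator_of_mem h, indicator_of_mem ((hmem i t).1 h)]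
      · rw [indicator_of_notMem h, indicator_of_notMem fun hh => h ((hmem i t).2 hh), mul_zero]
    constructor
    · rw [← integral_indicator measurableSet_Ioo, e, integral_const_mul,
        Measure.integral_comp_mul_left, integral_indicator measurableSet_Ioo, hone i,
        abs_of_pos (inv_pos.2 (hr i)), smul_eq_mul, mul_one, mul_inv_cancel₀ (hr i).ne']
    · rw [← integrable_indicator_iff measurableSet_Ioo, e]
      exact (((integrable_indicator_iff measurableSet_Ioo).2 (hint i)).comp_mul_left' (hr i).ne').const_mul _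
  have hB := brascamp_lieb hc hu hI (a := fun i => a i / r i) (b := fun i => b i / r i) (g := g')
    (fun i => continuousOn_const.mul ((hcont i).comp (continuousOn_const.mul continuousOn_id)
      fun t ht => (hmem i t).1 ht))
    (fun i t ht => mul_pos (hr i) (hpos i _ ((hmem i t).1 ht))) (fun i => (hset i).2)
    (fun i => (hset i).1)
  have hdet : LinearMap.det P ≠ 0 := fun h => by rw [h] at hP; simp at hP
  set L := (P.equivOfDetNeZero hdet).toContinuousLinearEquiv with hL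
  have hmp : MeasurePreserving (fun x => P x) (volume : Measure (EuclideanSpace ℝ (Fin n))) volume :=
    ⟨P.continuous_of_finiteDimensional.measurable, by
      rw [Measure.map_linearMap_addHaar_eq_smul_addHaar _ hdet, abs_inv, hP, inv_one,
        ENNReal.ofReal_one, one_smul]⟩
  have hemb : MeasurableEmbedding (fun x => P x) := by
    have h := L.toHomeomorph.measurableEmbedding
    convert h using 1
    ext x
    rfl
  rw [← hmp.setLIntegral_comp_preimage_emb hemb] at hB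
  refine le_trans ?_ hB
  exact lintegral_mono_set fun x hx i => (hmem i _).2 (hU x hx i)

end Vale.Agent.P237.Asymp
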