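import Vale.Agent.P237.Kappa

/-!
The asymptotic constant and its comparison with Petty's constant.
-/

open Real Filter Topology

namespace Vale.Agent.P237.Statement

/-- `4 ∏_{k=3}^n κ_k^(1/k)`. -/
noncomputable def asympConst (n : ℕ) : ℝ := 4 * ∏ k ∈ Finset.Icc 3 n, ballVol k ^ ((1 : ℝ) / k)

end Vale.Agent.P237.Statement

namespace Vale.Agent.P237

open Statement

/-- `log κ_n`. -/
private noncomputable def L (n : ℕ) : ℝ := log (ballVol n)

private lemma L_rec (n : ℕ) : L (n + 3) = log (2 * π / ((n : ℝ) + 3)) + L (n + 1) := by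
  rw [L, L, ballVol_rec, log_mul (by positivity) (ballVol_pos n).ne']

private lemma L_concave (n : ℕ) : L (n + 1) + L (n + 3) ≤ 2 * L (n + 2) := by
  have h1 := ballVol_pos n
  have h2 : (0 : ℝ) < ballVol (n + 3) := ballVol_pos (n + 2)
  have h := log_le_log (mul_pos h1 h2) (ballVol_logConcave n)
  rw [log_mul h1.ne' h2.ne', log_pow] at h
  push_cast at h
  exact h

/-- The increments of `log κ` lie within `1/(2n)` of `log (2π/n) / 2`. -/
private lemma L_bounds (n : ℕ) :
    2 * (L (n + 3) - L (n + 2)) ≤ log (2 * π / ((n : ℝ) + 3)) ∧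
      log (2 * π / ((n : ℝ) + 4)) ≤ 2 * (L (n + 3) - L (n + 2)) := by
  have h1 := L_rec n
  have h2 := L_concave n
  have h3 := L_rec (n + 1)
  have h4 := L_concave (n + 1)
  push_cast at h3 h4
  rw [show (n : ℝ) + 1 + 3 = n + 4 by ring] at h3
  constructor <;> linarith

/-- The upper bound for twice the logarithm of Petty's constant. -/
private noncomputable def U (n : ℕ) : ℝ := 4 * L n + n * log (((n : ℝ) + 1) / (2 * π))

private lemma petty_le (n : ℕ) :
    0 < pettyConst (n + 2) ∧ 2 * log (pettyConst (n + 2)) ≤ U (n + 2) := by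
  have h1 := ballVol_pos n
  have h2 : (0 : ℝ) < ballVol (n + 2) := ballVol_pos (n + 1)
  have hp : 0 < pettyConst (n + 2) := by
    simp only [pettyConst, show n + 2 - 1 = n + 1 by omega, Nat.add_sub_cancel]
    positivity
  refine ⟨hp, ?_⟩
  have hr : 2 * L (n + 1) - 2 * L (n + 2) ≤ log (((n : ℝ) + 3) / (2 * π)) := by
    have h := log_le_log (by positivity) (ratio_bound n)
    rw [log_div (by positivity) (by positivity), log_pow, log_pow] at h
    push_cast at h
    exact h
  have e : log (pettyConst (n + 2)) = ((n : ℝ) + 2) * L (n + 1) - n * L (n + 2) := by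
    simp only [pettyConst, show n + 2 - 1 = n + 1 by omega, Nat.add_sub_cancel]
    rw [log_div (by positivity) (by positivity), log_pow, log_pow]
    push_cast [L]
    ring
  have h := mul_le_mul_of_nonneg_left hr (show (0 : ℝ) ≤ (n : ℝ) + 2 by positivity)
  rw [e, U]
  push_cast
  rw [show (n : ℝ) + 2 + 1 = n + 3 by ring]
  linarith

private lemma U_step (n : ℕ) : U (n + 3) - U (n + 2) ≤ log (2 * π) - log ((n : ℝ) + 3) + 1 := by
  have h := (L_bounds n).1
  rw [log_div (by positivity) (by positivity)] at h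
  have hq : ((n : ℝ) + 3) * (log ((n : ℝ) + 4) - log ((n : ℝ) + 3)) ≤ 1 := by
    rw [← log_div (by positivity) (by positivity)]
    refine (mul_le_mul_of_nonneg_left (log_le_sub_one_of_pos (by positivity)) (by positivity)).trans
      (le_of_eq ?_)
    field_simp
    ring
  rw [U, U]
  push_cast
  rw [show (n : ℝ) + 3 + 1 = n + 4 by ring, show (n : ℝ) + 2 + 1 = n + 3 by ring,
    log_div (by positivity) (by positivity), log_div (by positivity) (by positivity)]
  linarith

/-- A lower bound for `log κ_n` of the exponential order of the truth. -/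
private lemma L_lower : ∃ C : ℝ, ∀ n : ℕ,
    ((n : ℝ) + 2) * (log (2 * π) - log ((n : ℝ) + 3) + 1) - 2 * log ((n : ℝ) + 3) - C ≤
      2 * L (n + 2) := by
  refine ⟨|2 * L 2| + |2 * (log (2 * π) - log 3 + 1)| + |2 * log 3|, fun n => ?_⟩
  induction n with
  | zero =>
    simp only [Nat.cast_zero, zero_add]
    have := neg_abs_le (2 * L 2)
    have := le_abs_self (2 * (log (2 * π) - log 3 + 1))
    have := neg_abs_le (2 * log 3)
    linarith
  | succ k ih =>
    have h := (L_bounds k).2
    rw [log_div (by positivity) (by positivity)] at h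
    have hq : 1 ≤ ((k : ℝ) + 4) * (log ((k : ℝ) + 4) - log ((k : ℝ) + 3)) := by
      have h1 : log (((k : ℝ) + 3) / ((k : ℝ) + 4)) ≤ ((k : ℝ) + 3) / ((k : ℝ) + 4) - 1 :=
        log_le_sub_one_of_pos (by positivity)
      rw [log_div (by positivity) (by positivity)] at h1
      have h2 := mul_le_mul_of_nonneg_left h1 (show (0 : ℝ) ≤ (k : ℝ) + 4 by positivity)
      rw [mul_sub, mul_sub, mul_div_cancel₀ _ (show (k : ℝ) + 4 ≠ 0 by positivity)] at h2
      linarith
    rw [show k + 1 + 2 = k + 3 by omega]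
    push_cast
    rw [show (k : ℝ) + 1 + 2 = k + 3 by ring, show (k : ℝ) + 1 + 3 = k + 4 by ring]
    linarith

private lemma asymp_pos (n : ℕ) : 0 < asympConst n :=
  mul_pos (by norm_num) (Finset.prod_pos fun k hk => rpow_pos_of_pos (by
    obtain ⟨j, rfl⟩ : ∃ j, k = j + 1 := ⟨k - 1, by have := (Finset.mem_Icc.1 hk).1; omega⟩
    exact ballVol_pos j) _)

private lemma asymp_step (n : ℕ) :
    log (asympConst (n + 3)) = log (asympConst (n + 2)) + L (n + 3) / ((n : ℝ) + 3) := by
  have hk : 0 < ballVol (n + 3) := ballVol_pos (n + 2)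
  have e : asympConst (n + 3) = asympConst (n + 2) * ballVol (n + 3) ^ ((1 : ℝ) / ((n : ℝ) + 3)) := by
    rw [asympConst, asympConst, Finset.prod_Icc_succ_top (by omega : 3 ≤ n + 2 + 1), mul_assoc]
    push_cast
    rw [show (n : ℝ) + 2 + 1 = n + 3 by ring]
  rw [e, log_mul (asymp_pos _).ne' (rpow_pos_of_pos hk _).ne', log_rpow hk, L]
  ring

/-- The constant agrees with Petty's to first exponential order. -/
theorem asympConst_sharp : ∀ ε : ℝ, 0 < ε → ε < 1 → ∃ n₀ : ℕ, ∀ n, n₀ ≤ n →
    (1 - ε) ^ n * pettyConst n ≤ asympConst n := by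
  intro ε hε hε1
  obtain ⟨C, hC⟩ := L_lower
  set δ := -log (1 - ε) with hδ
  have hδ0 : 0 < δ := neg_pos.2 (log_neg (by linarith) (by linarith))
  set W : ℕ → ℝ := fun m => 2 * log (asympConst (m + 2)) - U (m + 2) with hW
  have ht : Tendsto (fun x : ℝ => (2 * log (x + 4) + C) / (x + 3)) atTop (𝓝 0) := by
    have h1 : Tendsto (fun x : ℝ => log x ^ 1 / x) atTop (𝓝 0) :=
      (tendsto_pow_log_div_mul_add_atTop 1 0 1 one_ne_zero).congr fun x => by simp
    have h2 := h1.comp (tendsto_atTop_add_const_right atTop (4 : ℝ) tendsto_id)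
    have h3 : Tendsto (fun x : ℝ => (x + 4) / (x + 3)) atTop (𝓝 1) := by
      have h4 : Tendsto (fun x : ℝ => 1 + (x + 3)⁻¹) atTop (𝓝 (1 + 0)) :=
        (tendsto_inv_atTop_zero.comp (tendsto_atTop_add_const_right atTop (3 : ℝ) tendsto_id)).const_add 1
      rw [add_zero] at h4
      refine h4.congr' ?_
      filter_upwards [eventually_ge_atTop (0 : ℝ)] with x hx
      field_simp
      ring
    have h5 : Tendsto (fun x : ℝ => C / (x + 3)) atTop (𝓝 0) :=
      (tendsto_id.atTop_add tendsto_const_nhds).const_div_atTop C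
    have h6 := (((h2.mul h3).const_mul 2).add h5)
    rw [zero_mul, mul_zero, add_zero] at h6
    refine h6.congr' ?_
    filter_upwards [eventually_ge_atTop (0 : ℝ)] with x hx
    simp only [Function.comp_apply, id_eq, pow_one]
    have : x + 4 ≠ 0 := by positivity
    field_simp
  obtain ⟨N₁, hN⟩ := eventually_atTop.1
    ((ht.comp tendsto_natCast_atTop_atTop).eventually (gt_mem_nhds (half_pos hδ0)))
  obtain ⟨N₂, hN₂⟩ := exists_nat_ge (2 / δ)
  set N := max N₁ N₂ with hNdef
  have hstep : ∀ k, N ≤ k → W k - δ ≤ W (k + 1) := by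
    intro k hk
    have h1 : (2 * log ((k : ℝ) + 4) + C) / ((k : ℝ) + 3) < δ / 2 :=
      hN k (le_trans (le_max_left _ _) hk)
    have hkδ : 1 / ((k : ℝ) + 3) ≤ δ / 2 := by
      have h6 : (N₂ : ℝ) ≤ k := by exact_mod_cast le_trans (le_max_right _ _) hk
      rw [div_le_iff₀ (by positivity)]
      rw [div_le_iff₀ hδ0] at hN₂
      have h7 := mul_le_mul_of_nonneg_right h6 hδ0.le
      linarith
    have h2 := hC (k + 1)
    have h3 := U_step k
    have h4 := asymp_step k
    rw [show k + 1 + 2 = k + 3 by omega] at h2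
    push_cast at h2
    rw [show (k : ℝ) + 1 + 2 = k + 3 by ring, show (k : ℝ) + 1 + 3 = k + 4 by ring] at h2
    have h5 : log (2 * π) - log ((k : ℝ) + 4) + 1 - δ / 2 ≤ 2 * (L (k + 3) / ((k : ℝ) + 3)) := by
      rw [div_lt_iff₀ (by positivity)] at h1
      rw [← mul_div_assoc, le_div_iff₀ (by positivity)]
      linarith
    have h8 : log ((k : ℝ) + 4) - log ((k : ℝ) + 3) ≤ 1 / ((k : ℝ) + 3) := by
      rw [← log_div (by positivity) (by positivity)]
      refine (log_le_sub_one_of_pos (by positivity)).trans (le_of_eq ?_)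
      field_simp
      ring
    simp only [hW]
    rw [show k + 1 + 2 = k + 3 by omega]
    linarith
  have hlow : ∀ j : ℕ, W N - j * δ ≤ W (N + j) := by
    intro j
    induction j with
    | zero => simp
    | succ j ih =>
      have h := hstep (N + j) (by omega)
      rw [show N + (j + 1) = N + j + 1 by omega]
      push_cast
      linarith
  obtain ⟨M, hM⟩ := exists_nat_ge (-W N / δ)
  refine ⟨N + M + 2, fun n hn => ?_⟩
  obtain ⟨j, rfl⟩ : ∃ j, n = N + j + 2 := ⟨n - (N + 2), by omega⟩
  have hMj : (M : ℝ) ≤ j := by exact_mod_cast (show M ≤ j by omega)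
  rw [div_le_iff₀ hδ0] at hM
  have h9 := mul_le_mul_of_nonneg_right hMj hδ0.le
  have h10 : (0 : ℝ) ≤ (N : ℝ) * δ := by positivity
  obtain ⟨hp, hpl⟩ := petty_le (N + j)
  have hj := hlow j
  simp only [hW] at hj
  have he : 0 < 1 - ε := by linarith
  rw [← log_le_log_iff (mul_pos (pow_pos he _) hp) (asymp_pos _),
    log_mul (pow_pos he _).ne' hp.ne', log_pow, show log (1 - ε) = -δ by rw [hδ, neg_neg]]
  push_cast
  simp only [hW] at hM
  linarith

end Vale.Agent.P237
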