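import Mathlib

/-!
The determinant inequality behind the geometric Brascamp-Lieb inequality:
`det (∑ cᵢ sᵢ uᵢ uᵢᵀ) ≥ ∏ sᵢ^cᵢ` when `∑ cᵢ uᵢ uᵢᵀ = I`.
-/

open Finset Real
open scoped RealInnerProductSpace

namespace Vale.Agent.P237.Asymp

variable {ι : Type*} [Fintype ι] {n : ℕ}

/-- The map `x ↦ ∑ wᵢ ⟨uᵢ, x⟩ uᵢ`. -/
noncomputable def frameOp (w : ι → ℝ) (u : ι → (EuclideanSpace ℝ (Fin n))) : (EuclideanSpace ℝ (Fin n)) →L[ℝ] (EuclideanSpace ℝ (Fin n)) :=
  ∑ i, (w i) • ContinuousLinearMap.smulRight (innerSL ℝ (u i)) (u i)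

lemma frameOp_apply (w : ι → ℝ) (u : ι → (EuclideanSpace ℝ (Fin n))) (x : (EuclideanSpace ℝ (Fin n))) :
    frameOp w u x = ∑ i, (w i * ⟪u i, x⟫) • u i := by
  simp [frameOp, smul_smul, innerSL_apply_apply]

lemma inner_frameOp (w : ι → ℝ) (u : ι → (EuclideanSpace ℝ (Fin n))) (x y : (EuclideanSpace ℝ (Fin n))) :
    ⟪frameOp w u x, y⟫ = ∑ i, w i * ⟪u i, x⟫ * ⟪u i, y⟫ := by
  simp [frameOp_apply, sum_inner, real_inner_smul_left]

lemma frame_mass {c : ι → ℝ} {u : ι → (EuclideanSpace ℝ (Fin n))} (hu : ∀ i, ‖u i‖ = 1)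
    (hI : ∀ x : (EuclideanSpace ℝ (Fin n)), ∑ i, c i * ⟪u i, x⟫ ^ 2 = ‖x‖ ^ 2) : ∑ i, c i = n := by
  set b := EuclideanSpace.basisFun (Fin n) ℝ
  have h : ∀ i, ∑ j, ⟪u i, b j⟫ ^ 2 = 1 := fun i => by
    have := b.sum_sq_norm_inner_left (u i)
    simp only [Real.norm_eq_abs, sq_abs, hu i, one_pow] at this
    simpa [real_inner_comm] using this
  calc ∑ i, c i = ∑ i, c i * ∑ j, ⟪u i, b j⟫ ^ 2 := by simp [h]
    _ = ∑ j, ∑ i, c i * ⟪u i, b j⟫ ^ 2 := by simp_rw [mul_sum]; exact sum_comm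
    _ = n := by simp [hI, b.norm_eq_one]

theorem prod_rpow_le_det {c : ι → ℝ} (hc : ∀ i, 0 ≤ c i) {u : ι → (EuclideanSpace ℝ (Fin n))} (hu : ∀ i, ‖u i‖ = 1)
    (hI : ∀ x : (EuclideanSpace ℝ (Fin n)), ∑ i, c i * ⟪u i, x⟫ ^ 2 = ‖x‖ ^ 2) {s : ι → ℝ} (hs : ∀ i, 0 < s i) :
    ∏ i, s i ^ c i ≤ LinearMap.det (frameOp (fun i => c i * s i) u : (EuclideanSpace ℝ (Fin n)) →ₗ[ℝ] (EuclideanSpace ℝ (Fin n))) := by
  set M : (EuclideanSpace ℝ (Fin n)) →ₗ[ℝ] (EuclideanSpace ℝ (Fin n)) := (frameOp (fun i => c i * s i) u : (EuclideanSpace ℝ (Fin n)) →ₗ[ℝ] (EuclideanSpace ℝ (Fin n))) with hM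
  have hsym : M.IsSymmetric := fun x y => by
    rw [real_inner_comm _ x]
    simp only [hM, ContinuousLinearMap.coe_coe, inner_frameOp]
    exact sum_congr rfl fun i _ => by ring
  have hn : Module.finrank ℝ (EuclideanSpace ℝ (Fin n)) = n := finrank_euclideanSpace_fin
  set b := hsym.eigenvectorBasis hn with hb
  set l := hsym.eigenvalues hn with hl
  set w : ι → Fin n → ℝ := fun i j => ⟪u i, b j⟫ ^ 2 with hw
  have hlam : ∀ j, l j = ∑ i, c i * s i * w i j := by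
    intro j
    have h : M (b j) = (l j : ℝ) • b j := hsym.apply_eigenvectorBasis hn j
    have h2 : ⟪M (b j), b j⟫ = l j := by
      rw [h, real_inner_smul_left, real_inner_self_eq_norm_sq, b.norm_eq_one]; ring
    rw [← h2, hM, ContinuousLinearMap.coe_coe, inner_frameOp]
    exact sum_congr rfl fun i _ => by simp only [w]; ring
  have hw0 : ∀ i j, 0 ≤ w i j := fun i j => sq_nonneg _
  have hw1 : ∀ i, ∑ j, w i j = 1 := fun i => by
    have := b.sum_sq_norm_inner_left (u i)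
    simp only [Real.norm_eq_abs, sq_abs, hu i, one_pow] at this
    simpa [w, real_inner_comm] using this
  have hcw : ∀ j, ∑ i, c i * w i j = 1 := fun j => by simp [w, hI, b.norm_eq_one]
  have hl0 : ∀ j, 0 < l j := by
    intro j
    obtain ⟨i, -, hi⟩ := exists_ne_zero_of_sum_ne_zero (by rw [hcw j]; norm_num : ∑ i, c i * w i j ≠ 0)
    rw [hlam]
    refine sum_pos' (fun k _ => mul_nonneg (mul_nonneg (hc k) (hs k).le) (hw0 k j))
      ⟨i, mem_univ i, ?_⟩
    have : 0 < c i * w i j := (mul_nonneg (hc i) (hw0 i j)).lt_of_ne' hi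
    calc (0 : ℝ) < c i * w i j * s i := mul_pos this (hs i)
      _ = _ := by ring
  set q : ι → ℝ := fun i => ∑ j, w i j * (l j)⁻¹ with hq
  have hq0 : ∀ i, 0 < q i := by
    intro i
    obtain ⟨j, -, hj⟩ := exists_ne_zero_of_sum_ne_zero (by rw [hw1 i]; norm_num : ∑ j, w i j ≠ 0)
    exact sum_pos' (fun k _ => mul_nonneg (hw0 i k) (inv_nonneg.2 (hl0 k).le))
      ⟨j, mem_univ j, mul_pos ((hw0 i j).lt_of_ne' hj) (inv_pos.2 (hl0 j))⟩
  have hsq : ∑ i, c i * (s i * q i) = n := by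
    calc ∑ i, c i * (s i * q i) = ∑ j, ∑ i, (c i * s i * w i j) * (l j)⁻¹ := by
          simp only [q, mul_sum]; rw [sum_comm]
          exact sum_congr rfl fun j _ => sum_congr rfl fun i _ => by ring
      _ = ∑ _j : Fin n, (1 : ℝ) := sum_congr rfl fun j _ => by
          rw [← sum_mul, ← hlam, mul_inv_cancel₀ (hl0 j).ne']
      _ = n := by simp
  have hlog : ∀ i, -log (q i) ≤ ∑ j, w i j * log (l j) := by
    intro i
    have := strictConcaveOn_log_Ioi.concaveOn.le_map_sum (t := univ) (w := w i)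
      (p := fun j => (l j)⁻¹) (fun j _ => hw0 i j) (hw1 i) (fun j _ => inv_pos.2 (hl0 j))
    simp only [smul_eq_mul, log_inv, mul_neg, sum_neg_distrib] at this
    simp only [q]
    linarith
  have key : ∑ i, c i * log (s i) ≤ ∑ j, log (l j) := by
    have h1 : ∀ i, c i * log (s i) ≤ c i * (s i * q i) - c i + ∑ j, c i * w i j * log (l j) := by
      intro i
      have h2 := log_le_sub_one_of_pos (mul_pos (hs i) (hq0 i))
      rw [log_mul (hs i).ne' (hq0 i).ne'] at h2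
      have h3 := hlog i
      have h4 : log (s i) ≤ s i * q i - 1 + ∑ j, w i j * log (l j) := by linarith
      refine (mul_le_mul_of_nonneg_left h4 (hc i)).trans (le_of_eq ?_)
      rw [mul_add, mul_sub, mul_one]
      congr 1
      rw [mul_sum]
      exact sum_congr rfl fun j _ => by ring
    refine (sum_le_sum fun i _ => h1 i).trans (le_of_eq ?_)
    rw [sum_add_distrib, sum_sub_distrib, hsq, frame_mass hu hI, sub_self, zero_add, sum_comm]
    exact sum_congr rfl fun j _ => by rw [← sum_mul, hcw, one_mul]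
  have hdet : LinearMap.det M = ∏ j, l j := by simpa using hsym.det_eq_prod_eigenvalues hn
  rw [hdet, ← exp_log (prod_pos fun j _ => hl0 j : 0 < ∏ j, l j),
    log_prod fun j _ => (hl0 j).ne']
  refine le_trans (le_of_eq ?_) (exp_le_exp.2 key)
  rw [exp_sum]
  exact prod_congr rfl fun i _ => by rw [rpow_def_of_pos (hs i), mul_comm]

end Vale.Agent.P237.Asymp
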