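import Mathlib

/-!
An affine position for finitely many vectors: `det A = 1` and the directions `A vᵢ`, weighted by
their lengths, are isotropic.
-/

open Filter Topology Real
open scoped RealInnerProductSpace

namespace Vale.Agent.P237.Asymp

variable {ι : Type*} [Fintype ι] {n : ℕ}

theorem exists_position (hn : 0 < n) {v : ι → (EuclideanSpace ℝ (Fin n))} (hv : ∀ i, v i ≠ 0) {c₀ : ℝ} (hc₀ : 0 < c₀)
    (hspan : ∀ u : (EuclideanSpace ℝ (Fin n)), c₀ * ‖u‖ ≤ ∑ i, |⟪v i, u⟫|) :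
    ∃ A : (EuclideanSpace ℝ (Fin n)) →L[ℝ] (EuclideanSpace ℝ (Fin n)), A.det = 1 ∧ (∀ i, A (v i) ≠ 0) ∧ ‖A‖ ≤ (∑ i, ‖A (v i)‖) / c₀ ∧
      ∀ x : (EuclideanSpace ℝ (Fin n)), ∑ i, ⟪A (v i), x⟫ ^ 2 / ‖A (v i)‖ = (∑ i, ‖A (v i)‖) / n * ‖x‖ ^ 2 := by
  set P : ((EuclideanSpace ℝ (Fin n)) →L[ℝ] (EuclideanSpace ℝ (Fin n))) → ℝ := fun A => ∑ i, ‖A (v i)‖ with hP
  have hbound : ∀ A : (EuclideanSpace ℝ (Fin n)) →L[ℝ] (EuclideanSpace ℝ (Fin n)), ‖A‖ ≤ P A / c₀ := by
    intro A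
    rw [← LinearIsometryEquiv.norm_map (ContinuousLinearMap.adjoint (𝕜 := ℝ) (E := (EuclideanSpace ℝ (Fin n))) (F := (EuclideanSpace ℝ (Fin n)))) A]
    refine ContinuousLinearMap.opNorm_le_bound _ (by positivity) fun u => ?_
    rw [div_mul_eq_mul_div, le_div_iff₀ hc₀, mul_comm]
    refine (hspan _).trans ?_
    rw [hP, Finset.sum_mul]
    refine Finset.sum_le_sum fun i _ => ?_
    rw [ContinuousLinearMap.adjoint_inner_right]
    exact abs_real_inner_le_norm _ _
  have hPc : Continuous P := by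
    simp only [hP]
    exact continuous_finsetSum _ fun i _ => ((ContinuousLinearMap.apply ℝ (EuclideanSpace ℝ (Fin n)) (v i)).continuous).norm
  set S := {A : (EuclideanSpace ℝ (Fin n)) →L[ℝ] (EuclideanSpace ℝ (Fin n)) | A.det = 1 ∧ P A ≤ P (ContinuousLinearMap.id ℝ (EuclideanSpace ℝ (Fin n)))} with hS
  have hcpt : IsCompact S := Metric.isCompact_of_isClosed_isBounded
    ((isClosed_eq ContinuousLinearMap.continuous_det continuous_const).inter
      (isClosed_le hPc continuous_const))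
    ((Metric.isBounded_closedBall (x := 0) (r := P (ContinuousLinearMap.id ℝ (EuclideanSpace ℝ (Fin n))) / c₀)).subset
      fun A hA => mem_closedBall_zero_iff.2 ((hbound A).trans
        (div_le_div_of_nonneg_right hA.2 hc₀.le)))
  obtain ⟨A, hA, hAmin⟩ := hcpt.exists_isMinOn
    ⟨ContinuousLinearMap.id ℝ (EuclideanSpace ℝ (Fin n)), ⟨LinearMap.det_id, le_rfl⟩⟩ hPc.continuousOn
  have hmin : ∀ B : (EuclideanSpace ℝ (Fin n)) →L[ℝ] (EuclideanSpace ℝ (Fin n)), B.det = 1 → P A ≤ P B := by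
    intro B hB
    by_cases hle : P B ≤ P (ContinuousLinearMap.id ℝ (EuclideanSpace ℝ (Fin n)))
    · exact hAmin ⟨hB, hle⟩
    · exact hA.2.trans (le_of_not_ge hle)
  have hAdet : LinearMap.det (A : (EuclideanSpace ℝ (Fin n)) →ₗ[ℝ] (EuclideanSpace ℝ (Fin n))) = 1 := hA.1
  have hAv : ∀ i, A (v i) ≠ 0 := by
    intro i h
    refine hv i ((LinearMap.ker_eq_bot.1 ?_) (h.trans (map_zero A).symm))
    by_contra hk
    exact one_ne_zero (hAdet.symm.trans (LinearMap.det_eq_zero_iff_ker_ne_bot.2 hk))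
  refine ⟨A, hA.1, hAv, hbound A, ?_⟩
  have hunit : ∀ a : (EuclideanSpace ℝ (Fin n)), ‖a‖ = 1 → ∑ i, ⟪A (v i), a⟫ ^ 2 / ‖A (v i)‖ = P A / n := by
    intro a ha
    set w : ι → (EuclideanSpace ℝ (Fin n)) := fun i => A (v i) with hw
    set f : ℝ → ℝ := fun t => (∑ i, ‖w i + t • ⟪w i, a⟫ • a‖) - P A * (1 + t) ^ ((1 : ℝ) / n) with hf
    have hf0 : f 0 = 0 := by simp [hf, hP, w]
    have hev : ∀ᶠ t in 𝓝 (0 : ℝ), f 0 ≤ f t := by
      filter_upwards [eventually_gt_nhds (show (-1 : ℝ) < 0 by norm_num)] with t ht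
      have h1 : 0 < 1 + t := by linarith
      set s := (1 + t) ^ (-((1 : ℝ) / n)) with hs
      set T : (EuclideanSpace ℝ (Fin n)) →L[ℝ] (EuclideanSpace ℝ (Fin n)) := ContinuousLinearMap.id ℝ (EuclideanSpace ℝ (Fin n)) +
        ContinuousLinearMap.smulRight (t • innerSL ℝ a) a with hT
      have hTdet : LinearMap.det (T : (EuclideanSpace ℝ (Fin n)) →ₗ[ℝ] (EuclideanSpace ℝ (Fin n))) = 1 + t := by
        have e : (T : (EuclideanSpace ℝ (Fin n)) →ₗ[ℝ] (EuclideanSpace ℝ (Fin n))) = LinearMap.transvection ((t • innerSL ℝ a : (EuclideanSpace ℝ (Fin n)) →L[ℝ] ℝ) : (EuclideanSpace ℝ (Fin n)) →ₗ[ℝ] ℝ) a := by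
          ext x
          simp [hT, LinearMap.transvection.apply]
        rw [e, LinearMap.transvection.det]
        simp [ha]
      have hB : (s • T.comp A).det = 1 := by
        show LinearMap.det (((s • T.comp A : (EuclideanSpace ℝ (Fin n)) →L[ℝ] (EuclideanSpace ℝ (Fin n)))) : (EuclideanSpace ℝ (Fin n)) →ₗ[ℝ] (EuclideanSpace ℝ (Fin n))) = 1
        rw [ContinuousLinearMap.toLinearMap_smul, LinearMap.det_smul, ContinuousLinearMap.toLinearMap_comp,
          LinearMap.det_comp, hTdet, hAdet, mul_one, finrank_euclideanSpace_fin, hs, ← rpow_natCast,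
          ← rpow_mul h1.le, neg_mul, one_div_mul_cancel (by exact_mod_cast hn.ne'), rpow_neg_one,
          inv_mul_cancel₀ h1.ne']
      have h2 := hmin _ hB
      have e2 : P (s • T.comp A) = s * ∑ i, ‖w i + t • ⟪w i, a⟫ • a‖ := by
        simp only [hP, smul_apply, norm_smul, Finset.mul_sum]
        refine Finset.sum_congr rfl fun i _ => ?_
        rw [Real.norm_of_nonneg (rpow_nonneg h1.le _ : 0 ≤ s)]
        congr 2
        simp [hT, w, smul_smul, real_inner_comm]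
      rw [e2] at h2
      rw [hf0]
      have h3 := mul_le_mul_of_nonneg_left h2 (rpow_nonneg h1.le ((1 : ℝ) / n))
      rw [← mul_assoc, hs, ← rpow_add h1, add_neg_cancel, rpow_zero, one_mul] at h3
      simp only [hf]
      linarith
    have hd : HasDerivAt f ((∑ i, ⟪w i, a⟫ ^ 2 / ‖w i‖) - P A * ((1 : ℝ) / n)) 0 := by
      refine HasDerivAt.fun_sub (HasDerivAt.fun_sum fun i _ => ?_) ?_
      · have h1 : HasDerivAt (fun t : ℝ => w i + t • ⟪w i, a⟫ • a) (⟪w i, a⟫ • a) 0 := by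
          simpa using ((hasDerivAt_id (0 : ℝ)).smul_const (⟪w i, a⟫ • a)).const_add (w i)
        have h2 := h1.norm_sq.sqrt (by simpa using hAv i)
        simp only [Real.sqrt_sq (norm_nonneg _), zero_smul, add_zero, real_inner_smul_right] at h2
        refine h2.congr_deriv ?_
        have : ‖w i‖ ≠ 0 := norm_ne_zero_iff.2 (hAv i)
        field_simp
      · have h1 := (((hasDerivAt_id (0 : ℝ)).const_add 1).rpow_const (p := (1 : ℝ) / n)
          (Or.inl (by norm_num))).const_mul (P A)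
        simpa using h1
    have := IsLocalMin.hasDerivAt_eq_zero hev hd
    simp only [w] at this
    rw [mul_one_div] at this
    linarith
  intro x
  rcases eq_or_ne x 0 with rfl | hx
  · simp
  have h := hunit (‖x‖⁻¹ • x) (norm_smul_inv_norm hx)
  have hx' : x = ‖x‖ • (‖x‖⁻¹ • x) := by
    rw [smul_smul, mul_inv_cancel₀ (norm_ne_zero_iff.2 hx), one_smul]
  conv_lhs => rw [hx']
  simp only [real_inner_smul_right] at h ⊢
  rw [← h, Finset.sum_mul]
  exact Finset.sum_congr rfl fun i _ => by ring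

end Vale.Agent.P237.Asymp
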