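import Vale.Agent.P237.Approx

/-!
The step from shadows to the projection body, stated for finitely many pieces of the surface.
-/

open MeasureTheory Set Filter Topology Real
open scoped RealInnerProductSpace Pointwise ENNReal NNReal

namespace Vale.Agent.P237

variable {n m : ℕ}

/-- Finitely many pieces of the surface whose shadows bound the volume of the projection body. -/
theorem step_pieces {K : Set (E (m + 2))} (hK : Cen K) {c₀ : ℝ} (hc₀ : 0 < c₀)
    (hlow : ∀ u, c₀ * ‖u‖ ≤ projVol K u) {δ : ℝ} (hδ : 0 < δ) (hδ1 : δ < 1) :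
    ∃ (k : ℕ) (v : Fin k → E (m + 2)),
      (∀ (f : E (m + 2) → ℝ) (L : ℝ≥0), LipschitzWith L f →
        (∀ c : ℝ, 0 ≤ c → ∀ x, f (c • x) = c * f x) →
          |∑ i, f (v i) - J K f| ≤ 2 * L * (δ * min c₀ 1)) ∧
      ∀ H : E (m + 2) → ℝ, H 0 ≤ 0 →
        (∀ w : E (m + 2), w ≠ 0 → ∀ F : Frame (‖w‖⁻¹ • w),
          H w ≤ ‖w‖ * (volume (wulff fun y : E (m + 1) => projVol K (F.S (0, y)))).toReal) →
        (1 - δ) ^ (m + 1) * ∑ i, H (v i) ≤ (m + 2 : ℝ) * (volume (projBody K)).toReal := by
  set VP := (volume (projBody K)).toReal with hVP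
  have hi : (interior K).Nonempty := ⟨0, hK.int⟩
  have hsub := sublin_projVol hK.toBody hi
  have hPB : IsCompact (projBody K) := hsub.cen.cpt
  set T := J K (fun _ => (1 : ℝ)) with hT
  have hT0 : 0 ≤ T := by rw [hT, J_const hK, mul_one]; positivity
  set ε := δ * min c₀ 1 / (T + 1) with hε
  have hε0 : 0 < ε := by positivity
  have hεT : ε * T ≤ δ * min c₀ 1 := by
    rw [hε, div_mul_eq_mul_div, div_le_iff₀ (by positivity)]
    exact mul_le_mul_of_nonneg_left (by linarith) (by positivity)
  obtain ⟨k, v, happ, hle⟩ := exists_pieces hK hε0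
  refine ⟨k, v, fun f L hf hh => (happ f L hf hh).trans ?_, fun H hH0 hW => ?_⟩
  · rw [mul_assoc _ ε T]
    exact mul_le_mul_of_nonneg_left hεT (by positivity)
  set a : E (m + 2) := -((1 / 2 : ℝ) • ∑ i, v i) with ha
  have hZ : ∀ z ∈ a +ᵥ zono v 1, z ∈ projBody K := by
    rintro _ ⟨_, ⟨e, he, rfl⟩, rfl⟩ u
    have h2 := hle u
    rw [J_abs hK] at h2
    have : a + ∑ i, e i • v i = ∑ i, (e i - 1 / 2) • v i := by
      simp only [ha, sub_smul, Finset.sum_sub_distrib, ← Finset.smul_sum]; abel
    show ⟪a + ∑ i, e i • v i, u⟫ ≤ _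
    rw [this, sum_inner]
    calc ∑ i, ⟪(e i - 1 / 2) • v i, u⟫ ≤ ∑ i, 1 / 2 * |⟪v i, u⟫| := by
          refine Finset.sum_le_sum fun i _ => ?_
          rw [real_inner_smul_left]
          refine (le_abs_self _).trans ?_
          rw [abs_mul]
          refine mul_le_mul_of_nonneg_right (abs_le.2 ⟨?_, ?_⟩) (abs_nonneg _)
          · linarith [he.1 i, show (0 : Fin k → ℝ) i = 0 from rfl]
          · linarith [he.2 i, show (1 : Fin k → ℝ) i = 1 from rfl]
      _ ≤ _ := by rw [← Finset.mul_sum]; linarith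
  have hvol : (volume (zono v 1)).toReal ≤ VP := by
    rw [← measure_vadd (μ := (volume : Measure (E (m + 2)))) a (zono v 1)]
    exact ENNReal.toReal_mono hPB.measure_lt_top.ne (measure_mono hZ)
  have hproj : ∀ i, (1 - δ) ^ (m + 1) * H (v i) ≤ projVol (zono v 1) (v i) := by
    intro i
    rcases eq_or_ne (v i) 0 with h0 | h0
    · rw [h0, projVol_zero]
      exact mul_nonpos_of_nonneg_of_nonpos (pow_nonneg (by linarith) _) hH0
    obtain ⟨F⟩ := exists_frame (ν := ‖v i‖⁻¹ • v i) (norm_smul_inv_norm h0)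
    set W := wulff fun y : E (m + 1) => projVol K (F.S (0, y))
    have hsubset : (1 - δ) • W ⊆ F.proj '' (a +ᵥ zono v 1) := by
      rintro _ ⟨y, hy, rfl⟩
      by_contra hnot
      set Z := a +ᵥ zono v 1
      have hZb : Body Z := (zono_body v 1).vadd a
      have hconv : Convex ℝ (F.proj '' Z) := by
        have h := hZb.conv.linear_image ((LinearMap.snd ℝ ℝ (E (m + 1))) ∘ₗ
          F.S.symm.toLinearEquiv.toLinearMap)
        exact h
      obtain ⟨f, s, hf1, hf2⟩ := geometric_hahn_banach_closed_point hconv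
        (hZb.cpt.image F.continuous_proj).isClosed hnot
      set z := (InnerProductSpace.toDual ℝ (E (m + 1))).symm f with hz
      have hfz : ∀ x, f x = ⟪z, x⟫ := fun x => by rw [hz, InnerProductSpace.toDual_symm_apply]
      set e : Fin k → ℝ := fun j => if 0 ≤ ⟪v j, F.S (0, z)⟫ then 1 else 0 with he
      have hmem : a + ∑ j, e j • v j ∈ Z := by
        refine ⟨_, ⟨e, ⟨fun j => ?_, fun j => ?_⟩, rfl⟩, rfl⟩ <;>
          simp only [he, Pi.zero_apply, Pi.one_apply] <;> split_ifs <;> norm_num
      have h1 := hf1 _ (mem_image_of_mem F.proj hmem)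
      have h2 : ⟪a + ∑ j, e j • v j, F.S (0, z)⟫ = 1 / 2 * ∑ j, |⟪v j, F.S (0, z)⟫| := by
        rw [ha, inner_add_left, inner_neg_left, real_inner_smul_left, sum_inner, sum_inner,
          Finset.mul_sum, Finset.mul_sum, ← Finset.sum_neg_distrib, ← Finset.sum_add_distrib]
        refine Finset.sum_congr rfl fun j _ => ?_
        rw [real_inner_smul_left, he]
        dsimp only
        split_ifs with h
        · rw [abs_of_nonneg h]; ring
        · rw [abs_of_neg (not_le.1 h)]; ring
      have h3 := happ (fun x => |⟪x, F.S (0, z)⟫|) ‖F.S (0, z)‖₊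
        (LipschitzWith.of_le_add_mul _ fun x x' => by
          have h4 := abs_sub_abs_le_abs_sub ⟪x, F.S (0, z)⟫ ⟪x', F.S (0, z)⟫
          rw [← inner_sub_left] at h4
          have h5 := abs_real_inner_le_norm (x - x') (F.S (0, z))
          rw [coe_nnnorm, dist_eq_norm, mul_comm]
          linarith)
        (fun c hc x => by rw [real_inner_smul_left, abs_mul, abs_of_nonneg hc])
      rw [J_abs hK, coe_nnnorm] at h3
      have h4 := (abs_le.1 h3).1
      have h5 : (1 - δ) * projVol K (F.S (0, z)) ≤ f (F.proj (a + ∑ j, e j • v j)) := by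
        rw [hfz, real_inner_comm, ← F.inner_hyper, h2]
        have h6 := hlow (F.S (0, z))
        have h7 : ε * T * ‖F.S (0, z)‖ ≤ δ * c₀ * ‖F.S (0, z)‖ := by
          refine mul_le_mul_of_nonneg_right (hεT.trans ?_) (norm_nonneg _)
          exact mul_le_mul_of_nonneg_left (min_le_left _ _) hδ.le
        have h8 := mul_le_mul_of_nonneg_left h6 hδ.le
        linarith
      have h6 : f ((1 - δ) • y) ≤ (1 - δ) * projVol K (F.S (0, z)) := by
        rw [hfz, inner_smul_right, real_inner_comm]
        exact mul_le_mul_of_nonneg_left (hy z) (by linarith)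
      linarith
    have h1 : (1 - δ) ^ (m + 1) * (volume W).toReal ≤ (volume (F.proj '' (a +ᵥ zono v 1))).toReal := by
      rw [← volume_smul (by linarith : 0 ≤ 1 - δ)]
      exact ENNReal.toReal_mono
        (((zono_body v 1).vadd a).cpt.image F.continuous_proj).measure_lt_top.ne
        (measure_mono hsubset)
    have h2 : projVol (zono v 1) (v i) =
        ‖v i‖ * (volume (F.proj '' (a +ᵥ zono v 1))).toReal := by
      rw [← projVol_vadd (zono_body v 1) a]
      conv_lhs => arg 2; rw [show v i = ‖v i‖ • (‖v i‖⁻¹ • v i) by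
        rw [smul_smul, mul_inv_cancel₀ (norm_ne_zero_iff.2 h0), one_smul]]
      rw [F.projVol_eq, abs_norm]
    rw [h2]
    calc (1 - δ) ^ (m + 1) * H (v i) ≤ (1 - δ) ^ (m + 1) * (‖v i‖ * (volume W).toReal) :=
          mul_le_mul_of_nonneg_left (hW _ h0 F) (pow_nonneg (by linarith) _)
      _ = ‖v i‖ * ((1 - δ) ^ (m + 1) * (volume W).toReal) := by ring
      _ ≤ _ := mul_le_mul_of_nonneg_left h1 (norm_nonneg _)
  have hsum : (∑ i, projVol (zono v 1) (v i)) ≤ (m + 2 : ℝ) * VP := by
    have := (volume_zono (Nat.succ_ne_zero m) v).trans hvol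
    rw [div_le_iff₀ (by positivity)] at this
    push_cast at this
    linarith
  rw [Finset.mul_sum]
  exact (Finset.sum_le_sum fun i _ => hproj i).trans hsum

end Vale.Agent.P237
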