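import Vale.Agent.P237.Asymp.Slices
import Vale.Agent.P237.Asymp.Position
import Vale.Agent.P237.Asymp.Step
import Vale.Agent.P237.Asymp.Const
import Vale.Agent.P237.Bridge

/-!
`|Π K| ≥ 4 ∏_{k=3}^n κ_k^(1/k) |K|^(n-1)` by induction on the dimension.
-/

open MeasureTheory Set Filter Topology Real
open scoped RealInnerProductSpace Pointwise ENNReal NNReal

namespace Vale.Agent.P237.Asymp

open Statement

variable {m : ℕ}

/-- The bound in dimension `m + 1`. -/
def Bound (m : ℕ) : Prop :=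
  ∀ L : Set (E (m + 1)), Body L → (interior L).Nonempty →
    asympConst (m + 1) * (volume L).toReal ^ m ≤ (volume (projBody L)).toReal

lemma asympConst_nonneg (n : ℕ) : 0 ≤ asympConst n := by
  unfold asympConst
  exact mul_nonneg (by norm_num) (Finset.prod_nonneg fun k _ =>
    rpow_nonneg (by unfold ballVol vol; exact ENNReal.toReal_nonneg) _)

lemma asympConst_succ (hm : 1 ≤ m) :
    asympConst (m + 2) = asympConst (m + 1) * ballVol (m + 2) ^ ((1 : ℝ) / (m + 2 : ℕ)) := by
  rw [asympConst, asympConst, Finset.prod_Icc_succ_top (by omega : 3 ≤ m + 1 + 1), mul_assoc]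

lemma bound_one : Bound 1 := by
  intro L hL hi
  have h := good 1 L hL hi
  rw [show cst (1 + 1) = 4 by norm_num [cst]] at h
  rw [show asympConst (1 + 1) = 4 by norm_num [asympConst]]
  exact h

/-- Minkowski's first inequality for the image of the surface under a map of determinant one. -/
lemma area_lower {K : Set (E (m + 2))} (hK : Cen K) (A : E (m + 2) →L[ℝ] E (m + 2)) (hA : A.det = 1)
    {a b : ℝ} (ha : 0 ≤ a) (hb0 : 0 ≤ b) (haV : a ^ (m + 2) = (volume K).toReal)
    (hbk : b ^ (m + 2) = ballVol (m + 2)) :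
    ((m + 1 : ℕ) + 1 : ℝ) * a ^ (m + 1) * b ≤ J K fun x => ‖A x‖ := by
  set L := ContinuousLinearMap.adjoint A '' Metric.closedBall (0 : E (m + 2)) 1 with hL
  have hLv : (volume L).toReal = ballVol (m + 2) := by
    have hd : LinearMap.det (ContinuousLinearMap.adjoint A : E (m + 2) →ₗ[ℝ] E (m + 2)) = 1 := by
      have b := EuclideanSpace.basisFun (Fin (m + 2)) ℝ
      rw [show (ContinuousLinearMap.adjoint A : E (m + 2) →ₗ[ℝ] E (m + 2)) =
          LinearMap.adjoint (A : E (m + 2) →ₗ[ℝ] E (m + 2)) from rfl,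
        ← LinearMap.det_toMatrix b.toBasis (LinearMap.adjoint _), LinearMap.toMatrix_adjoint b b,
        Matrix.det_conjTranspose, LinearMap.det_toMatrix]
      rw [show LinearMap.det (A : E (m + 2) →ₗ[ℝ] E (m + 2)) = 1 from hA]
      simp
    rw [hL, Measure.addHaar_image_continuousLinearMap]
    rw [show LinearMap.det (ContinuousLinearMap.adjoint A : E (m + 2) →ₗ[ℝ] E (m + 2)) = 1 from hd,
      abs_one, ENNReal.ofReal_one, one_mul]
    rfl
  have h1 := mink (L := L) hK
    ((isCompact_closedBall _ _).image (ContinuousLinearMap.adjoint A).continuous)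
    ((Metric.nonempty_closedBall.2 zero_le_one).image _) (phi := fun x => ‖A x‖)
    A.continuous.norm (fun l hl x => by
      obtain ⟨w, hw, rfl⟩ := hl
      rw [ContinuousLinearMap.adjoint_inner_right]
      exact (real_inner_le_norm _ _).trans (mul_le_of_le_one_right (norm_nonneg _)
        (mem_closedBall_zero_iff.1 hw)))
    ha hb0 haV (by rw [hLv, hbk])
  exact h1

lemma dir_unit {n : ℕ} {w : E n} (hw : w ≠ 0) : ‖‖w‖⁻¹ • w‖ = 1 := norm_smul_inv_norm hw

/-- The shadows in the directions of the pieces are large. -/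
lemma shadows_lower (hm : 1 ≤ m) (ih : Bound m) {K : Set (E (m + 2))} (hK : Cen K) {k : ℕ}
    {v : Fin k → E (m + 2)} {D R : ℝ}
    (hH : ∀ H : E (m + 2) → ℝ, H 0 ≤ 0 →
        (∀ w : E (m + 2), w ≠ 0 → ∀ F : Frame (‖w‖⁻¹ • w),
          H w ≤ ‖w‖ * (volume (wulff fun y : E (m + 1) => projVol K (F.S (0, y)))).toReal) →
        D * ∑ i, H (v i) ≤ R) (hD : 0 ≤ D) (s : Finset (Fin k)) (hs : ∀ i, i ∈ s ↔ v i ≠ 0)
    (A : E (m + 2) →L[ℝ] E (m + 2)) (hA : A.det = 1) (hne : ∀ i : s, A (v i) ≠ 0)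
    (hiso : ∀ x, ∑ i : s, ⟪A (v i), x⟫ ^ 2 / ‖A (v i)‖ =
      (∑ i : s, ‖A (v i)‖) / (m + 2 : ℕ) * ‖x‖ ^ 2) {a : ℝ} (ha : 0 ≤ a)
    (haV : a ^ (m + 2) = (volume K).toReal) :
    D * (asympConst (m + 1) * ((∑ i : s, ‖A (v i)‖) * a ^ (1 + (m + 2) * m))) ≤ R := by
  classical
  have hi : (interior K).Nonempty := ⟨0, hK.int⟩
  set C := asympConst (m + 1) with hC
  have hv : ∀ i : s, v i ≠ 0 := fun i => (hs i).1 i.2
  set G : E (m + 2) → ℝ := fun w => if hw : w = 0 then 0 else
    ‖w‖ * (C * (∫ t, sv (Classical.choice (exists_frame (dir_unit hw))) K t ^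
      ((m : ℝ) / (m + 1))) ^ (m + 1)) with hG
  have hG0 : G 0 = 0 := by simp [hG]
  have hGle := hH G hG0.le fun w hw F => by
    simp only [hG, hw, ↓reduceDIte]
    refine mul_le_mul_of_nonneg_left ?_ (norm_nonneg _)
    refine (shadow_int hm (asympConst_nonneg _) ih hK.toBody hi _).trans (le_of_eq ?_)
    rw [projVol_projBody hK.toBody hi F]
  have e : ∑ i, G (v i) = ∑ i : s, G (v i) := by
    rw [Finset.sum_coe_sort s (fun i => G (v i))]
    exact (Finset.sum_subset (Finset.subset_univ s) fun i _ hi' => by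
      rw [show v i = 0 from not_not.1 fun h => hi' ((hs i).2 h), hG0]).symm
  rw [e] at hGle
  have hprod := slice_product hm hK.toBody hi (v := fun i : s => v i) hv A hA hiso hne
    (fun i => Classical.choice (exists_frame (dir_unit (hv i)))) ha haV
  refine le_trans (mul_le_mul_of_nonneg_left ?_ hD) hGle
  refine (mul_le_mul_of_nonneg_left hprod (asympConst_nonneg _)).trans (le_of_eq ?_)
  rw [Finset.mul_sum]
  refine Finset.sum_congr rfl fun i _ => ?_
  simp only [hG, hv i, ↓reduceDIte]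
  ring

/-- Without the loss, for a body with the origin inside. -/
lemma bound_cen (hm : 1 ≤ m) (ih : Bound m) {K : Set (E (m + 2))} (hK : Cen K) :
    asympConst (m + 2) * (volume K).toReal ^ (m + 1) ≤ (volume (projBody K)).toReal := by
  have hi : (interior K).Nonempty := ⟨0, hK.int⟩
  obtain ⟨c₀, hc₀, hlow⟩ := (sublin_projVol hK.toBody hi).lower
  set V := (volume K).toReal with hV
  set C := asympConst (m + 1) with hC
  obtain ⟨a, ha, haV⟩ := exists_root (n := m + 1 + 1) (by omega) (V := V) ENNReal.toReal_nonneg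
  set b := ballVol (m + 2) ^ ((1 : ℝ) / (m + 2 : ℕ)) with hb
  have hκ : 0 < ballVol (m + 2) := ballVol_pos (m + 1)
  have hb0 : 0 ≤ b := rpow_nonneg hκ.le _
  have hbk : b ^ (m + 2) = ballVol (m + 2) := by
    rw [hb, ← rpow_natCast, ← rpow_mul hκ.le, one_div_mul_cancel (by positivity), rpow_one]
  set VP := (volume (projBody K)).toReal with hVP
  have key : ∀ δ : ℝ, 0 < δ → δ < 1 →
      (1 - δ) ^ (m + 1) * (1 - δ) * (C * ((m + 2 : ℝ) * (V ^ (m + 1) * b))) ≤ (m + 2 : ℝ) * VP := by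
    intro δ hδ hδ1
    obtain ⟨k, v, happ, hH⟩ := step_pieces hK hc₀ hlow hδ hδ1
    have hmin : δ * min c₀ 1 ≤ δ * c₀ := mul_le_mul_of_nonneg_left (min_le_left _ _) hδ.le
    have hspan : ∀ u, 2 * c₀ * (1 - δ) * ‖u‖ ≤ ∑ i, |⟪v i, u⟫| := by
      intro u
      have h := happ (fun x => |⟪x, u⟫|) ‖u‖₊
        (LipschitzWith.of_le_add_mul _ fun x x' => by
          have h4 := abs_sub_abs_le_abs_sub ⟪x, u⟫ ⟪x', u⟫
          rw [← inner_sub_left] at h4
          have h5 := abs_real_inner_le_norm (x - x') u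
          rw [coe_nnnorm, dist_eq_norm, mul_comm]
          linarith)
        (fun c hc x => by rw [real_inner_smul_left, abs_mul, abs_of_nonneg hc])
      rw [J_abs hK, coe_nnnorm] at h
      have h1 := (abs_le.1 h).1
      have h2 := hlow u
      have h3 := mul_le_mul_of_nonneg_left hmin (norm_nonneg u)
      linarith
    classical
    set s := Finset.univ.filter fun i => v i ≠ 0 with hs
    have hsum : ∀ φ : E (m + 2) → ℝ, φ 0 = 0 → ∑ i, φ (v i) = ∑ i : s, φ (v i) := by
      intro φ h0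
      rw [Finset.sum_coe_sort s (fun i => φ (v i)), hs,
        Finset.sum_filter_of_ne (p := fun i => v i ≠ 0) fun i _ h hv => h (by rw [hv, h0])]
    obtain ⟨A, hA, hne, hAn, hiso⟩ := exists_position (ι := s) (Nat.succ_pos (m + 1))
      (v := fun i => v i) (fun i => (Finset.mem_filter.1 i.2).2) (c₀ := 2 * c₀ * (1 - δ))
      (mul_pos (by linarith) (by linarith)) (fun u => by
        rw [← hsum (fun x => |⟪x, u⟫|) (by simp)]; exact hspan u)
    set Φ := ∑ i : s, ‖A (v i)‖ with hΦ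
    have hΦ' : Φ = ∑ i, ‖A (v i)‖ := (hsum (fun x => ‖A x‖) (by simp)).symm
    -- Minkowski's first inequality bounds the weighted area from below
    have hmink : (1 - δ) * ((m + 2 : ℝ) * (a ^ (m + 1) * b)) ≤ Φ := by
      have h1 := area_lower hK A hA ha hb0 haV hbk
      have h2 := (abs_le.1 (happ (fun x => ‖A x‖) ‖A‖₊
        (LipschitzWith.of_dist_le_mul fun x y => by
          rw [Real.dist_eq, dist_eq_norm, coe_nnnorm]
          exact (abs_norm_sub_norm_le _ _).trans (by rw [← map_sub]; exact A.le_opNorm _))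
        (fun c hc x => by rw [map_smul, norm_smul, Real.norm_of_nonneg hc]))).1
      rw [← hΦ', coe_nnnorm] at h2
      rw [le_div_iff₀ (mul_pos (by linarith) (by linarith))] at hAn
      have h3 := mul_le_mul_of_nonneg_left hmin (norm_nonneg A)
      have h4 := mul_le_mul_of_nonneg_left h1 (by linarith : (0 : ℝ) ≤ 1 - δ)
      have h5 : (1 - δ) * J K (fun x => ‖A x‖) ≤ (1 - δ) * (Φ + 2 * ‖A‖ * (δ * c₀)) :=
        mul_le_mul_of_nonneg_left (by linarith) (by linarith)
      have h6 : δ * (‖A‖ * (2 * c₀ * (1 - δ))) ≤ δ * Φ := mul_le_mul_of_nonneg_left hAn hδ.le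
      push_cast at h4
      linarith
    have hsh := shadows_lower hm ih hK hH (pow_nonneg (by linarith) _) s
      (fun i => by simp [s]) A hA hne hiso ha haV
    have hpow : a ^ (m + 1) * a ^ (1 + (m + 2) * m) = V ^ (m + 1) := by
      rw [← haV, ← pow_add, ← pow_mul]; ring_nf
    have hC0 : 0 ≤ C := asympConst_nonneg _
    have h1δ : 0 ≤ (1 - δ) ^ (m + 1) := pow_nonneg (by linarith) _
    calc (1 - δ) ^ (m + 1) * (1 - δ) * (C * ((m + 2 : ℝ) * (V ^ (m + 1) * b)))
        = (1 - δ) ^ (m + 1) * (C * (((1 - δ) * ((m + 2 : ℝ) * (a ^ (m + 1) * b))) *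
            a ^ (1 + (m + 2) * m))) := by rw [← hpow]; ring
      _ ≤ (1 - δ) ^ (m + 1) * (C * (Φ * a ^ (1 + (m + 2) * m))) := by gcongr
      _ ≤ _ := hsh
  have hlim : Tendsto (fun δ : ℝ => (1 - δ) ^ (m + 1) * (1 - δ) *
      (C * ((m + 2 : ℝ) * (V ^ (m + 1) * b)))) (𝓝[>] 0) (𝓝 (C * ((m + 2 : ℝ) * (V ^ (m + 1) * b)))) := by
    have : Continuous fun δ : ℝ => (1 - δ) ^ (m + 1) * (1 - δ) *
        (C * ((m + 2 : ℝ) * (V ^ (m + 1) * b))) := by fun_prop
    simpa using (this.tendsto 0).mono_left nhdsWithin_le_nhds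
  have h : C * ((m + 2 : ℝ) * (V ^ (m + 1) * b)) ≤ (m + 2 : ℝ) * VP := by
    refine le_of_tendsto hlim ?_
    filter_upwards [Ioo_mem_nhdsGT (zero_lt_one (α := ℝ))] with δ hδ
    exact key δ hδ.1 hδ.2
  rw [asympConst_succ hm, ← hC, ← hb]
  refine le_of_mul_le_mul_left (le_trans (le_of_eq ?_) h) (by positivity : (0 : ℝ) < (m : ℝ) + 2)
  ring

theorem bound : ∀ m, 1 ≤ m → Bound m := by
  intro m hm
  induction m, hm using Nat.le_induction with
  | base => exact bound_one
  | succ m hm ih =>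
    intro L hL hi
    obtain ⟨z, hK⟩ := exists_cen hL hi
    rw [← projBody_vadd hL z, ← measure_vadd (μ := (volume : Measure (E (m + 2)))) z L]
    exact bound_cen hm ih hK

/-- The statement-level form. -/
theorem asymptotically_sharp :
    (∀ (n : ℕ), 2 ≤ n → ∀ K : Set (Space n), IsConvexBody K →
      IsConvexBody (projectionBody K) ∧ IsSupportFun (projectionBody K) (projFun K) ∧
        asympConst n * vol K ^ (n - 1) ≤ vol (projectionBody K)) ∧
    ∀ ε : ℝ, 0 < ε → ε < 1 → ∃ n₀ : ℕ, ∀ n, n₀ ≤ n →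
      (1 - ε) ^ n * pettyConst n ≤ asympConst n := by
  refine ⟨fun n hn K hK => ?_, asympConst_sharp⟩
  obtain ⟨h1, h2, -⟩ := statement_bound (by omega : 1 ≤ n) hK
  refine ⟨h1, h2, ?_⟩
  obtain ⟨m, rfl⟩ := Nat.exists_eq_add_of_le' (by omega : 1 ≤ n)
  rw [projectionBody_eq]
  exact bound m (by omega) K ⟨hK.1, hK.2.1⟩ hK.2.2

end Vale.Agent.P237.Asymp
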