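import Vale.Agent.P237.Full.Position
import Vale.Agent.P237.Full.Shadow
import Vale.Agent.P237.Asymp.BL

/-!
The slice integrals of a body in finitely many isotropically weighted directions have a large
weighted sum (Brascamp-Lieb and Hölder).
-/

open MeasureTheory Set Filter Topology Real
open scoped RealInnerProductSpace ENNReal

namespace Vale.Agent.P237.Asymp

variable {m : ℕ} {K : Set (E (m + 2))}

/-- The slice volume. -/
noncomputable def sv {ν : E (m + 2)} (F : Frame ν) (K : Set (E (m + 2))) (t : ℝ) : ℝ :=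
  (volume (F.slice K t)).toReal

lemma sv_nonneg {ν : E (m + 2)} (F : Frame ν) (t : ℝ) : 0 ≤ sv F K t := ENNReal.toReal_nonneg

lemma measurable_sv {ν : E (m + 2)} (F : Frame ν) (hK : Body K) : Measurable (sv F K) :=
  (measurable_measure_prodMk_left
    (hK.cpt.measurableSet.preimage F.S.continuous.measurable)).ennreal_toReal

/-- The slice volume is positive and continuous exactly where the interior projects. -/
theorem exists_interval (hK : Body K) (hi : (interior K).Nonempty) {ν : E (m + 2)} (F : Frame ν) :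
    ∃ a b, (∀ x ∈ interior K, ⟪ν, x⟫ ∈ Ioo a b) ∧ ContinuousOn (sv F K) (Ioo a b) ∧
      (∀ t ∈ Ioo a b, 0 < sv F K t) ∧ IntegrableOn (sv F K) (Ioo a b) ∧
      ∫ t in Ioo a b, sv F K t = (volume K).toReal := by
  have hne : K.Nonempty := hi.mono interior_subset
  set a := -supp K (-ν) with ha
  set b := supp K ν with hb
  have hcont : Continuous fun x : E (m + 2) => ⟪ν, x⟫ := by fun_prop
  have hcoord : ∀ t y, ⟪ν, F.S (t, y)⟫ = t := fun t y => by
    rw [real_inner_comm]; exact F.inner_axis_S t y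
  have hmem : ∀ x ∈ K, ⟪ν, x⟫ ∈ Icc a b := fun x hx => by
    have h1 := (supp_spec hK.cpt hne ν).2 x hx
    have h2 := (supp_spec hK.cpt hne (-ν)).2 x hx
    rw [inner_neg_left] at h2
    exact ⟨by linarith, h1⟩
  have hint : ∀ x ∈ interior K, ⟪ν, x⟫ ∈ Ioo a b := by
    intro x hx
    obtain ⟨e, he, hball⟩ := Metric.mem_nhds_iff.1 (mem_interior_iff_mem_nhds.1 hx)
    have hνν : ⟪ν, ν⟫ = 1 := by rw [real_inner_self_eq_norm_sq, F.norm_axis]; norm_num
    have h : ∀ s : ℝ, |s| < e → x + s • ν ∈ K := fun s hs =>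
      hball (by simpa [norm_smul, F.norm_axis] using hs)
    have h1 := (hmem _ (h (e / 2) (by rw [abs_of_pos] <;> linarith))).2
    have h2 := (hmem _ (h (-(e / 2)) (by rw [abs_neg, abs_of_pos] <;> linarith))).1
    simp only [inner_add_right, real_inner_smul_right, hνν] at h1 h2
    exact ⟨by linarith, by linarith⟩
  have hdense : closure (interior K) = K := by
    rw [hK.conv.closure_interior_eq_closure_of_nonempty_interior hi, hK.cpt.isClosed.closure_eq]
  have hhit : ∀ t ∈ Ioo a b, ∃ x ∈ interior K, ⟪ν, x⟫ = t := by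
    intro t ht
    obtain ⟨⟨k, hk, ek⟩, -⟩ := supp_spec hK.cpt hne ν
    obtain ⟨⟨l, hl, el⟩, -⟩ := supp_spec hK.cpt hne (-ν)
    rw [inner_neg_left] at el
    obtain ⟨p, hp1, hp2⟩ := mem_closure_iff.1 (hdense.ge hk) {x | t < ⟪ν, x⟫}
      (isOpen_lt continuous_const hcont) (show t < ⟪ν, k⟫ by rw [← ek]; exact ht.2)
    obtain ⟨q, hq1, hq2⟩ := mem_closure_iff.1 (hdense.ge hl) {x | ⟪ν, x⟫ < t}
      (isOpen_lt hcont continuous_const) (show ⟪ν, l⟫ < t by linarith [ht.1])
    exact (hK.conv.interior.isPreconnected.image _ hcont.continuousOn).ordConnected.out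
      ⟨q, hq2, rfl⟩ ⟨p, hp2, rfl⟩ ⟨(show ⟪ν, q⟫ < t from hq1).le, (show t < ⟪ν, p⟫ from hp1).le⟩
  have hpos : ∀ t ∈ Ioo a b, 0 < sv F K t := by
    intro t ht
    obtain ⟨x, hx, hxt⟩ := hhit t ht
    set O : Set (E (m + 1)) := (fun y => F.S (t, y)) ⁻¹' interior K with hO
    have ho : IsOpen O := isOpen_interior.preimage (by fun_prop)
    have hOn : O.Nonempty := by
      refine ⟨(F.S.symm x).2, ?_⟩
      have h1 : (F.S.symm x).1 = t := by
        rw [← hxt, ← hcoord (F.S.symm x).1 (F.S.symm x).2, Prod.mk.eta, F.S.apply_symm_apply]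
      show F.S (t, (F.S.symm x).2) ∈ interior K
      rw [← h1, Prod.mk.eta, F.S.apply_symm_apply]
      exact hx
    exact ENNReal.toReal_pos ((ho.measure_pos volume hOn).trans_le
      (measure_mono (preimage_mono interior_subset))).ne' (F.slice_body hK t).cpt.measure_lt_top.ne
  have hsn : ∀ t ∈ Icc a b, (F.slice K t).Nonempty := by
    intro t ht
    obtain ⟨⟨k, hk, ek⟩, -⟩ := supp_spec hK.cpt hne ν
    obtain ⟨⟨l, hl, el⟩, -⟩ := supp_spec hK.cpt hne (-ν)
    rw [inner_neg_left] at el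
    obtain ⟨x, hx, hxt⟩ := (hK.conv.isPreconnected.image _ hcont.continuousOn).ordConnected.out
      ⟨l, hl, (show ⟪ν, l⟫ = a by linarith)⟩ ⟨k, hk, ek.symm⟩ ht
    refine ⟨(F.S.symm x).2, ?_⟩
    have h1 : (F.S.symm x).1 = t := by
      rw [← hxt, ← hcoord (F.S.symm x).1 (F.S.symm x).2, Prod.mk.eta, F.S.apply_symm_apply]
    show F.S (t, (F.S.symm x).2) ∈ K
    rw [← h1, Prod.mk.eta, F.S.apply_symm_apply]
    exact hx
  have hc : ContinuousOn (sv F K) (Ioo a b) := by
    have h := (F.rad_concave (Nat.succ_pos m) hK hsn).continuousOn_interior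
    rw [interior_Icc] at h
    refine ((continuousOn_const (c := Statement.ballVol (m + 1))).mul (h.pow (m + 1))).congr fun t _ => ?_
    exact F.volume_slice_eq (Nat.succ_pos m) t
  obtain ⟨hvi, hve⟩ := F.volume_slices K hK.cpt
  have hz : ∀ t, t ∉ Icc a b → sv F K t = 0 := fun t ht => by
    have : F.slice K t = ∅ := eq_empty_iff_forall_notMem.2 fun y hy => ht (by
      simpa [hcoord] using hmem _ hy)
    simp [sv, this]
  refine ⟨a, b, hint, hc, hpos, hvi.integrableOn, ?_⟩
  rw [← integral_Icc_eq_integral_Ioo, setIntegral_eq_integral_of_forall_compl_eq_zero hz]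
  exact hve

/-- Integrating a function of the height over the interior. -/
lemma lintegral_height (hK : Body K) {ν : E (m + 2)} (F : Frame ν) {φ : ℝ → ℝ≥0∞}
    (hφ : Measurable φ) :
    ∫⁻ x in interior K, φ ⟪ν, x⟫ ≤ ∫⁻ t, φ t * ENNReal.ofReal (sv F K t) := by
  refine (lintegral_mono_set interior_subset).trans (le_of_eq ?_)
  have hm := hK.cpt.measurableSet.preimage F.S.continuous.measurable
  rw [← F.mp.setLIntegral_comp_preimage_emb F.S.toHomeomorph.measurableEmbedding (fun x => φ ⟪ν, x⟫) K,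
    ← lintegral_indicator hm, Measure.volume_eq_prod,
    lintegral_prod _ ((Measurable.indicator (by fun_prop) hm).aemeasurable)]
  refine lintegral_congr fun t => ?_
  have hs : MeasurableSet (F.slice K t) := (F.slice_body hK t).cpt.measurableSet
  rw [show (fun y => (F.S ⁻¹' K).indicator (fun p => φ ⟪ν, F.S p⟫) (t, y)) =
      (F.slice K t).indicator (fun _ => φ t) from ?_, lintegral_indicator hs, setLIntegral_const, sv,
    ENNReal.ofReal_toReal (F.slice_body hK t).cpt.measure_lt_top.ne]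
  funext y
  by_cases h : F.S (t, y) ∈ K
  · rw [indicator_of_mem (show (t, y) ∈ F.S ⁻¹' K from h), indicator_of_mem (show y ∈ F.slice K t from h),
      real_inner_comm, F.inner_axis_S]
  · rw [indicator_of_notMem (show (t, y) ∉ F.S ⁻¹' K from h),
      indicator_of_notMem (show y ∉ F.slice K t from h)]

/-- The weighted product of the slice integrals is large. -/
theorem slice_product (hm : 1 ≤ m) (hK : Body K) (hi : (interior K).Nonempty) {ι : Type*} [Fintype ι]
    {v : ι → E (m + 2)} (hv : ∀ i, v i ≠ 0) (A : E (m + 2) →L[ℝ] E (m + 2)) (hA : A.det = 1)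
    (hiso : ∀ x, ∑ i, ⟪A (v i), x⟫ ^ 2 / ‖A (v i)‖ =
      (∑ i, ‖A (v i)‖) / (m + 2 : ℕ) * ‖x‖ ^ 2)
    (hne : ∀ i, A (v i) ≠ 0) (F : ∀ i, Frame (‖v i‖⁻¹ • v i)) {a : ℝ} (ha : 0 ≤ a)
    (haV : a ^ (m + 2) = (volume K).toReal) :
    (∑ i, ‖A (v i)‖) * a ^ (1 + (m + 2) * m) ≤
      ∑ i, ‖v i‖ * (∫ t, sv (F i) K t ^ ((m : ℝ) / (m + 1))) ^ (m + 1) := by
  set Φ := ∑ i, ‖A (v i)‖ with hΦ
  set V := (volume K).toReal with hV
  have hVpos : 0 < V := ENNReal.toReal_pos ((isOpen_interior.measure_pos volume hi).trans_le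
    (measure_mono interior_subset)).ne' hK.cpt.measure_lt_top.ne
  rcases isEmpty_or_nonempty ι with hι | hι
  · simp [hΦ]
  have hΦ0 : 0 < Φ := Finset.sum_pos (fun i _ => norm_pos_iff.2 (hne i)) Finset.univ_nonempty
  choose al be hal hsc hsp hsi hse using fun i => exists_interval hK hi (F i)
  set N : ℝ := ((m + 2 : ℕ) : ℝ) with hN
  have hN0 : (0 : ℝ) < N := by positivity
  set p : ι → ℝ := fun i => ‖A (v i)‖ / Φ with hp
  set c : ι → ℝ := fun i => N * p i with hc
  set r : ι → ℝ := fun i => ‖A (v i)‖ / ‖v i‖ with hr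
  set u : ι → E (m + 2) := fun i => ‖A (v i)‖⁻¹ • A (v i) with hu
  have hp0 : ∀ i, 0 ≤ p i := fun i => div_nonneg (norm_nonneg _) hΦ0.le
  have hp1 : ∑ i, p i = 1 := by simp only [p]; rw [← Finset.sum_div, ← hΦ, div_self hΦ0.ne']
  have hr0 : ∀ i, 0 < r i := fun i => div_pos (norm_pos_iff.2 (hne i)) (norm_pos_iff.2 (hv i))
  have hu1 : ∀ i, ‖u i‖ = 1 := fun i => norm_smul_inv_norm (hne i)
  have hI : ∀ x, ∑ i, c i * ⟪u i, x⟫ ^ 2 = ‖x‖ ^ 2 := fun x => by
    calc ∑ i, c i * ⟪u i, x⟫ ^ 2 = N / Φ * ∑ i, ⟪A (v i), x⟫ ^ 2 / ‖A (v i)‖ := by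
          rw [Finset.mul_sum]
          refine Finset.sum_congr rfl fun i _ => ?_
          have := (norm_pos_iff.2 (hne i)).ne'
          simp only [c, p, u, real_inner_smul_left]
          field_simp
      _ = ‖x‖ ^ 2 := by rw [hiso]; field_simp
  have hAd : LinearMap.det (A : E (m + 2) →ₗ[ℝ] E (m + 2)) = 1 := hA
  set B := LinearMap.equivOfDetNeZero (A : E (m + 2) →ₗ[ℝ] E (m + 2)) (by rw [hAd]; norm_num) with hB
  set P : E (m + 2) →ₗ[ℝ] E (m + 2) := LinearMap.adjoint (B.symm : E (m + 2) →ₗ[ℝ] E (m + 2)) with hP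
  have hPdet : |LinearMap.det P| = 1 := by
    have h : LinearMap.det ((B.symm : E (m + 2) →ₗ[ℝ] E (m + 2))) = 1 := by
      have := LinearEquiv.det_mul_det_symm B
      rw [show LinearMap.det (B : E (m + 2) →ₗ[ℝ] E (m + 2)) = 1 from hAd, one_mul] at this
      exact this
    have b := EuclideanSpace.basisFun (Fin (m + 2)) ℝ
    rw [hP, ← LinearMap.det_toMatrix b.toBasis (LinearMap.adjoint _), LinearMap.toMatrix_adjoint b b,
      Matrix.det_conjTranspose, LinearMap.det_toMatrix, h]
    simp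
  have hkey : ∀ i x, r i * ⟪u i, P x⟫ = ⟪‖v i‖⁻¹ • v i, x⟫ := by
    intro i x
    have e : (B.symm : E (m + 2) →ₗ[ℝ] E (m + 2)) (A (v i)) = v i := B.symm_apply_apply (v i)
    have := (norm_pos_iff.2 (hne i)).ne'
    simp only [u, hP, LinearMap.adjoint_inner_right, map_smul, e, real_inner_smul_left, r]
    field_simp
  -- Brascamp-Lieb
  set f : ι → E (m + 2) → ℝ := fun i x => sv (F i) K ⟪‖v i‖⁻¹ • v i, x⟫ with hf
  set β : ℝ := 1 / ((m : ℝ) + 1) with hβ
  have hfm : ∀ i, Measurable (f i) := fun i => (measurable_sv (F i) hK).comp (by fun_prop)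
  have hf0 : ∀ x ∈ interior K, ∀ i, 0 < f i x := fun x hx i => hsp i _ (hal i x hx)
  have hBL := brascamp_lieb_comp (fun i => mul_nonneg hN0.le (hp0 i)) hu1 hI P hPdet hr0
    (g := fun i t => sv (F i) K t / V) (a := al) (b := be) (fun i => (hsc i).div_const _)
    (fun i t ht => div_pos (hsp i t ht) hVpos) (fun i => (hsi i).div_const _)
    (fun i => by rw [integral_div, hse, div_self hVpos.ne']) (U := interior K)
    (fun x hx i => by rw [hkey]; exact hal i x hx)
  set R := ∏ i, r i ^ p i with hR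
  have hR0 : 0 < R := Finset.prod_pos fun i _ => rpow_pos_of_pos (hr0 i) _
  set Y : E (m + 2) → ℝ := fun x => ∏ i, f i x ^ p i with hY
  have hY0 : ∀ x ∈ interior K, 0 < Y x := fun x hx =>
    Finset.prod_pos fun i _ => rpow_pos_of_pos (hf0 x hx i) _
  have hBL' : ∫⁻ x in interior K, ENNReal.ofReal (Y x ^ N) ≤ ENNReal.ofReal (V ^ N / R ^ N) := by
    have e : ∀ x ∈ interior K, ENNReal.ofReal (Y x ^ N) = ENNReal.ofReal (V ^ N / R ^ N) *
        ENNReal.ofReal (∏ i, (r i * (sv (F i) K (r i * ⟪u i, P x⟫) / V)) ^ c i) := by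
      intro x hx
      rw [← ENNReal.ofReal_mul (by positivity)]
      congr 1
      simp only [hkey]
      have hVp : V = ∏ i, V ^ p i := by
        rw [← rpow_sum_of_pos hVpos, hp1, rpow_one]
      rw [← div_rpow hVpos.le hR0.le, hVp, hR, ← Finset.prod_div_distrib, hY,
        ← finsetProd_rpow _ _ (fun i _ => (rpow_pos_of_pos (hf0 x hx i) _).le),
        ← finsetProd_rpow _ _ (fun i _ => (by have := hr0 i; positivity)), ← Finset.prod_mul_distrib]
      refine Finset.prod_congr rfl fun i _ => ?_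
      rw [← hVp]
      have hri := hr0 i
      have hfi := hf0 x hx i
      rw [← div_rpow hVpos.le hri.le, ← rpow_mul hfi.le, ← rpow_mul (by positivity : 0 ≤ V / r i),
        show c i = p i * N from mul_comm _ _, ← mul_rpow (by positivity) (by positivity)]
      congr 1
      simp only [f]
      field_simp
    rw [setLIntegral_congr_fun isOpen_interior.measurableSet e,
      lintegral_const_mul' _ _ ENNReal.ofReal_ne_top]
    exact (mul_le_mul_right hBL _).trans_eq (mul_one _)
  set G : ι → ℝ := fun i => ∫ t, sv (F i) K t ^ ((m : ℝ) / (m + 1)) with hG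
  have hG0 : ∀ i, 0 ≤ G i := fun i => integral_nonneg fun t => rpow_nonneg (sv_nonneg _ t) _
  have hαpos : (0 : ℝ) < (m : ℝ) / (m + 1) := by
    have : (1 : ℝ) ≤ m := by exact_mod_cast hm
    positivity
  have hGl : ∀ i, ∫⁻ x in interior K, ENNReal.ofReal (f i x ^ (-β)) ≤ ENNReal.ofReal (G i) := by
    intro i
    refine (lintegral_height hK (F i) (φ := fun t => ENNReal.ofReal (sv (F i) K t ^ (-β)))
      ((measurable_sv (F i) hK).pow_const _).ennreal_ofReal).trans ?_
    have hGe : ENNReal.ofReal (G i) =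
        ∫⁻ t, ENNReal.ofReal (sv (F i) K t ^ ((m : ℝ) / (m + 1))) :=
      ofReal_integral_eq_lintegral_ofReal (integrable_slice_rpow hK (F i) hαpos)
        (Eventually.of_forall fun t => rpow_nonneg (sv_nonneg _ t) _)
    rw [hGe]
    refine lintegral_mono fun t => ?_
    rw [← ENNReal.ofReal_mul (rpow_nonneg (sv_nonneg _ t) _)]
    refine ENNReal.ofReal_le_ofReal (le_of_eq ?_)
    rcases (sv_nonneg (K := K) (F i) t).eq_or_lt with h | h
    · simp [← h, zero_rpow hαpos.ne']
    · rw [← rpow_add_one h.ne', hβ]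
      congr 1
      field_simp
      ring
  -- Hölder
  have hZ : ∫⁻ x in interior K, ENNReal.ofReal (Y x ^ (-β)) ≤ ENNReal.ofReal (∏ i, G i ^ p i) := by
    have e : ∀ x ∈ interior K, ENNReal.ofReal (Y x ^ (-β)) =
        ∏ i, ENNReal.ofReal (f i x ^ (-β)) ^ p i := by
      intro x hx
      rw [hY, ← finsetProd_rpow _ _ (fun i _ => rpow_nonneg (hf0 x hx i).le _),
        ENNReal.ofReal_prod_of_nonneg (fun i _ => rpow_nonneg (rpow_nonneg (hf0 x hx i).le _) _)]
      refine Finset.prod_congr rfl fun i _ => ?_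
      rw [ENNReal.ofReal_rpow_of_nonneg (rpow_nonneg (hf0 x hx i).le _) (hp0 i),
        ← rpow_mul (hf0 x hx i).le, ← rpow_mul (hf0 x hx i).le, mul_comm]
    rw [setLIntegral_congr_fun isOpen_interior.measurableSet e,
      ENNReal.ofReal_prod_of_nonneg (fun i _ => rpow_nonneg (hG0 i) _)]
    refine (ENNReal.lintegral_prod_norm_pow_le _
      (fun i _ => ((hfm i).pow_const _).ennreal_ofReal.aemeasurable) hp1 fun i _ => hp0 i).trans ?_
    refine Finset.prod_le_prod' fun i _ => ?_
    rw [← ENNReal.ofReal_rpow_of_nonneg (hG0 i) (hp0 i)]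
    exact ENNReal.rpow_le_rpow (hGl i) (hp0 i)
  set θ : ℝ := 1 / (1 + N * (m + 1)) with hθ
  have hθ0 : 0 ≤ θ := by positivity
  have hθ1 : 0 ≤ 1 - θ := by
    rw [hθ, sub_nonneg, div_le_one (by positivity)]
    have : 0 ≤ N * ((m : ℝ) + 1) := by positivity
    linarith
  have hexp : N * θ + -β * (1 - θ) = 0 := by
    rw [hθ, hβ]
    field_simp
    ring
  set M := ∏ i, G i ^ p i with hM
  have hM0 : 0 ≤ M := Finset.prod_nonneg fun i _ => rpow_nonneg (hG0 i) _
  have hmain : V ≤ (V ^ N / R ^ N) ^ θ * M ^ (1 - θ) := by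
    rw [← ENNReal.ofReal_le_ofReal_iff (by positivity)]
    calc ENNReal.ofReal V = volume (interior K) := by
          rw [hV, ENNReal.ofReal_toReal hK.cpt.measure_lt_top.ne]
          refine le_antisymm ?_ (measure_mono interior_subset)
          calc volume K ≤ volume (interior K ∪ frontier K) := measure_mono (by
                rw [← closure_eq_interior_union_frontier]; exact subset_closure)
            _ ≤ _ := measure_union_le _ _
            _ = _ := by rw [hK.conv.addHaar_frontier volume, add_zero]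
      _ = ∫⁻ x in interior K, ENNReal.ofReal (Y x ^ N) ^ θ * ENNReal.ofReal (Y x ^ (-β)) ^ (1 - θ) := by
          rw [← setLIntegral_one]
          refine setLIntegral_congr_fun isOpen_interior.measurableSet fun x hx => ?_
          have h := hY0 x hx
          rw [ENNReal.ofReal_rpow_of_pos (rpow_pos_of_pos h _),
            ENNReal.ofReal_rpow_of_pos (rpow_pos_of_pos h _), ← ENNReal.ofReal_mul (by positivity),
            ← rpow_mul h.le, ← rpow_mul h.le, ← rpow_add h, hexp, rpow_zero, ENNReal.ofReal_one]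
      _ ≤ (∫⁻ x in interior K, ENNReal.ofReal (Y x ^ N)) ^ θ *
            (∫⁻ x in interior K, ENNReal.ofReal (Y x ^ (-β))) ^ (1 - θ) := by
          have hYm : Measurable Y := Finset.measurable_prod _ fun i _ => (hfm i).pow_const _
          exact ENNReal.lintegral_mul_norm_pow_le (hYm.pow_const _).ennreal_ofReal.aemeasurable
            (hYm.pow_const _).ennreal_ofReal.aemeasurable hθ0 hθ1 (by ring)
      _ ≤ ENNReal.ofReal (V ^ N / R ^ N) ^ θ * ENNReal.ofReal M ^ (1 - θ) := by
          gcongr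
      _ = _ := by
          rw [ENNReal.ofReal_rpow_of_nonneg (by positivity) hθ0,
            ENNReal.ofReal_rpow_of_nonneg hM0 hθ1, ← ENNReal.ofReal_mul (by positivity)]
  set D : ℕ := 1 + (m + 2) * (m + 1) with hD
  have hDθ : θ * (D : ℝ) = 1 := by
    rw [hθ, hD, hN]
    push_cast
    field_simp
  have hpow : V ^ D ≤ V ^ (m + 2) / R ^ (m + 2) * M ^ ((m + 2) * (m + 1)) := by
    refine (pow_le_pow_left₀ hVpos.le hmain D).trans (le_of_eq ?_)
    rw [mul_pow, ← rpow_natCast, ← rpow_natCast (M ^ (1 - θ)), ← rpow_mul (by positivity),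
      ← rpow_mul hM0, hDθ, rpow_one, hN, rpow_natCast, rpow_natCast, sub_mul, one_mul, hDθ,
      ← rpow_natCast M ((m + 2) * (m + 1))]
    congr 2
    rw [hD]
    push_cast
    ring
  have hprod : a ^ (1 + (m + 2) * m) ≤ ∏ i, (G i ^ (m + 1) / r i) ^ p i := by
    have eX : ∏ i, (G i ^ (m + 1) / r i) ^ p i = M ^ (m + 1) / R := by
      rw [hM, hR, ← Finset.prod_pow, ← Finset.prod_div_distrib]
      refine Finset.prod_congr rfl fun i _ => ?_
      rw [div_rpow (pow_nonneg (hG0 i) _) (hr0 i).le, rpow_pow_comm (hG0 i)]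
    rw [eX]
    refine (pow_le_pow_iff_left₀ (pow_nonneg ha _) (div_nonneg (pow_nonneg hM0 _) hR0.le)
      (show m + 2 ≠ 0 by omega)).1 ?_
    rw [← pow_mul, mul_comm _ (m + 2), pow_mul, haV, div_pow, ← pow_mul, mul_comm (m + 1) (m + 2)]
    rw [div_mul_eq_mul_div, le_div_iff₀ (pow_pos hR0 _), hD,
      show 1 + (m + 2) * (m + 1) = (1 + (m + 2) * m) + (m + 2) by ring, pow_add, mul_comm _ (V ^ (m + 2)),
      mul_assoc] at hpow
    rw [le_div_iff₀ (pow_pos hR0 _)]
    exact le_of_mul_le_mul_left hpow (pow_pos hVpos _)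
  calc Φ * a ^ (1 + (m + 2) * m) ≤ Φ * ∏ i, (G i ^ (m + 1) / r i) ^ p i :=
        mul_le_mul_of_nonneg_left hprod hΦ0.le
    _ ≤ Φ * ∑ i, p i * (G i ^ (m + 1) / r i) := mul_le_mul_of_nonneg_left
        (geom_mean_le_arith_mean_weighted _ _ _ (fun i _ => hp0 i) hp1
          fun i _ => div_nonneg (pow_nonneg (hG0 i) _) (hr0 i).le) hΦ0.le
    _ = _ := by
      rw [Finset.mul_sum]
      refine Finset.sum_congr rfl fun i _ => ?_
      have := (norm_pos_iff.2 (hne i)).ne'
      simp only [p, r, G]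
      field_simp

end Vale.Agent.P237.Asymp
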